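import Vale.Agent.P354YU.S1

/-!
S1: the theorem.
-/

set_option linter.all false

open scoped ContDiff Nat
open Set Filter Topology

noncomputable section

namespace Vale.Agent.P354YU

open Vale.Agent.P354n (R4)
open Vale.Agent.P354XA (hor)
open Vale.Agent.P354XB (Win)
open Vale.Agent.P354XU (Jt)
open Vale.Agent.P354YQ (JD)
open Vale.Agent.P354KX (lb_ne lg_lb)
open Vale.Agent.P354SA (sm dv RAYS EIK BOT)

/-- The choice of the parameters. -/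
theorem num (n K N : ℕ) {s κ C C'' : ℝ} (C' T0 T1 : ℝ) (hs : 1 < s) (hκ : 0 < κ) (c2 : 1 ≤ C'') :
    ∃ ν T2 : ℝ, ∀ T ≥ T2, ∃ L G : ℝ, (T1 ≤ T ∧ 1 ≤ T ∧ T0 ≤ L ∧ 1 ≤ L ∧ L ^ 2 ≤ T ∧
      L ^ (n + 12 + 13) ≤ T ^ (min s 2 - 1) ∧ T ^ K ≤ G ∧ 5 / 2 * T ≤ G ∧
      G ≤ Real.exp (κ / 4 * T) ∧ (0 < ν ∧ ν ≤ 1 ∧ 1 ≤ ν * G)) ∧
      n ! * (C * (5 / 2 * T)) * (2 * (C' * T) ^ (n + 8 + 1)) ^ n ≤ G ∧
      3 * (C' * T) * (C' * T) ^ (n + 8 + 1) * C ≤ G ∧ (1 ≤ C' → 1 ≤ C' * Real.log T →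
        (C'' * (T / L) * (C' * Real.log T) * T) ^ N ≤ G ∧
        C'' * (T / L) * (C' * Real.log T) ^ N ≤ Real.log G ∧
        ν * (T + 1) + C'' * (T / L) * (C' * Real.log T) ^ N / ν * (C' * Real.log T) ≤
          Real.log G) := by
  have s1 : 0 < min s 2 - 1 := sub_pos.2 (lt_min hs one_lt_two)
  have s2 : min s 2 - 1 ≤ 1 := by linarith [min_le_right s 2]
  obtain ⟨e, he⟩ : ∃ e, e = (min s 2 - 1) / ((n + 12 + 13 : ℕ) : ℝ) := ⟨_, rfl⟩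
  have e3 : 0 < e := he ▸ by positivity
  obtain ⟨ν, n0, n1, n2⟩ : ∃ ν > 0, ν ≤ 1 ∧ ν ≤ κ / 16 :=
    ⟨min 1 (κ / 16), by positivity, min_le_left _ _, min_le_right _ _⟩
  have k4 : 0 < κ / 4 := by positivity
  obtain ⟨T2, hT2⟩ := eventually_atTop.1 (((tendsto_rpow_atTop e3).eventually_ge_atTop T0).and
    ((eventually_ge_atTop (max T1 1)).and ((ev_exp k4 1 K).and
    ((ev_exp k4 ((C'' * C') ^ N) (3 * N)).and ((ev_exp k4 (5 / 2 + ν⁻¹) 1).and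
    ((ev_exp k4 (n ! * (C * (5 / 2)) * (2 * C' ^ (n + 9)) ^ n) (1 + (n + 9) * n)).and
    ((ev_exp k4 (3 * C * C' ^ (n + 10)) (n + 10)).and
    (ev_log e3 (8 * C'' * C' ^ (N + 1) / (κ * ν)) (N + 1)))))))))
  refine ⟨ν, T2, fun T hT => ?_⟩
  obtain ⟨f1, f2, f3, f4, f5, f6, f7, f8⟩ := hT2 T hT
  obtain ⟨f2, t1⟩ := max_le_iff.1 f2
  have t0 : 0 ≤ T := by linarith
  have L1 := Real.one_le_rpow t1 e3.le
  have L3 : (T ^ e) ^ (n + 12 + 13) = T ^ (min s 2 - 1) := by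
    rw [← Real.rpow_mul_natCast t0, he, div_mul_cancel₀ _ (by positivity)]
  have L2 : (T ^ e) ^ 2 ≤ T := (pow_le_pow_right₀ L1 (by omega)).trans (L3.trans_le
    ((Real.rpow_le_rpow_of_exponent_le t1 s2).trans_eq (Real.rpow_one _)))
  generalize T ^ e = L at *
  have i0 : 0 < ν⁻¹ := inv_pos.2 n0
  have i1 := le_mul_of_one_le_right i0.le t1
  rw [pow_one, add_mul] at f5
  refine ⟨L, _, ⟨f2, t1, f1, L1, L2, L3.le, (one_mul _).symm.trans_le f3, by linarith, le_rfl, n0,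
    n1, (inv_le_iff_one_le_mul₀' n0).1 (by linarith)⟩, le_of_eq_of_le (by ring) f6,
    le_of_eq_of_le (by ring) f7, fun p1 p4 => ?_⟩
  rw [Real.log_exp]
  have A0 : 0 ≤ C'' * (T / L) * (C' * Real.log T) ^ N := by positivity
  have A1 : C'' * (T / L) * (C' * Real.log T) ^ N / ν * (C' * Real.log T) ≤ κ / 8 * T := by
    have : 0 ≤ κ / 8 * T / L := by positivity
    refine le_of_eq_of_le ?_ ((mul_le_mul_of_nonneg_left f8 this).trans_eq (by field_simp))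
    field_simp
    ring
  refine ⟨le_trans (pow_le_pow_left₀ (b := C'' * C' * T ^ 3) (by positivity) ?_ N)
    (le_of_eq_of_le (by rw [mul_pow, ← pow_mul]) f4), ?_, ?_⟩
  · have a1 : T / L ≤ T := div_le_self t0 L1
    have a2 := (Real.log_le_sub_one_of_pos (by linarith : 0 < T)).trans (sub_le_self _ zero_le_one)
    have a3 := Real.log_nonneg t1
    calc _ ≤ C'' * T * (C' * T) * T := by gcongr
      _ = _ := by ring
  · have := le_mul_of_one_le_right (div_nonneg A0 n0.le) p4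
    linarith [le_div_self A0 n0 n1, mul_nonneg hκ.le t0]
  · have := mul_le_mul n2 (by linarith : T + 1 ≤ 2 * T) (by linarith) (by linarith)
    linarith

/-- The jets of the slab in the ingoing chart. -/
theorem jt_of {n : ℕ} {C C' T R G : ℝ} {Φ : R4 → R4} {Λ : R4 → ℝ} {p : R4} (C1 : 1 ≤ C)
    (t1 : 1 ≤ T) (y1 : 1 ≤ C' * T) (hR : R ≤ 5 / 2 * T) (a3 : ‖Φ (sm R Λ p)‖ ≤ C * R)
    (a4 : JD (n + 12 + 1) Φ (sm R Λ p) C) (a5 : ∀ v, ‖v‖ ≤ C * ‖fderiv ℝ Φ (sm R Λ p) v‖)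
    (k : dv nv Λ p ≤ -(C' * T)⁻¹) (jl : JD (n + 8 + 1) Λ p ((C' * T) ^ (n + 8 + 1)))
    (f6 : n ! * (C * (5 / 2 * T)) * (2 * (C' * T) ^ (n + 8 + 1)) ^ n ≤ G)
    (f7 : 3 * (C' * T) * (C' * T) ^ (n + 8 + 1) * C ≤ G) :
    Jt n (Φ ∘ sm R Λ) p G ∧ ∀ v, ‖v‖ ≤ G * ‖fderiv ℝ (Φ ∘ sm R Λ) p v‖ := by
  have x1 := one_le_pow₀ (n := n + 8 + 1) y1
  refine ⟨((((a4.ord (by omega)).mono (D := C * (5 / 2 * T)) (by nlinarith)).jb (a3.trans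
    (mul_le_mul_of_nonneg_left hR (by linarith)))).comp
    (sm_jd (jl.ord (by omega)) x1 R) (by linarith)).mono f6 |>.le, fun v => ?_⟩
  rw [fderiv_comp p a4.sm.diff (sm_jd jl x1 R).sm.diff]
  refine (sm_inv (jl.ord (by omega)) x1 y1 k R v).trans
    ((mul_le_mul_of_nonneg_left (a5 _) (by positivity)).trans ?_)
  rw [← mul_assoc]
  exact mul_le_mul_of_nonneg_right f7 (norm_nonneg _)

theorem s1 (hR : RAYS) (hE : EIK) (hB : BOT) : P354KX.S1 := by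
  intro j0 s δ hj ha hM hs hδ
  obtain ⟨E, C0, c0, w1, hw1, ρ0, hR⟩ := hR j0 s δ hj ha hM hs hδ
  obtain ⟨β, w2, hw2, hE⟩ := hE C0
  obtain ⟨c, hc, w3, hw3, hB⟩ := hB j0.M j0.a E C0 hM c0
  refine ⟨β, c, hc, min w1 (min w2 w3), by positivity, fun w hw n t ht j hj' r1 r0 r2 B rad => ?_⟩
  subst hj'
  obtain ⟨w0, hw⟩ := hw
  simp only [le_min_iff] at hw
  obtain ⟨-, -, ⟨b1, b2, b3, b4⟩, -, -⟩ := B
  obtain ⟨C, C1, hR⟩ := hR (n + 12) t ht r1 r2 b1 (b2.trans b3) (b4.le.trans (hor hM).2.2.2.1) rad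
  obtain ⟨C', ε1, T0, e1, hE⟩ := hE w ⟨w0, hw.2.1⟩ (n + 8) C
  obtain ⟨C'', N, c2, hV⟩ := cvt n C'
  refine ⟨C'', C''⁻¹, by positivity, fun c0' hc0 => ?_⟩
  obtain ⟨ε2, e2, T1, K, hB⟩ := hB w ⟨w0, hw.2.2⟩ (n + 12) C C1 c0' hc0
  refine ⟨1, one_pos, fun θ hθ => ⟨ρ0, fun ρ hρ => ⟨n + 12 + 13, fun N' hN => ?_⟩⟩⟩
  obtain ⟨ε0, e0, hR⟩ := hR ρ hρ (min ε1 ε2) (lt_min e1 e2)
  refine ⟨min ε0 ε2, lt_min e0 e2, fun ε hε d T J Z _ hT hx b σ κ hκ ρ1 => ?_⟩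
  obtain ⟨cc, ph, hx⟩ := hx b
  obtain ⟨R1, hR⟩ := hR _ _ _ _ _ _ _ rfl rfl rfl rfl rfl rfl ⟨hθ.1, hθ.2.le⟩ hN
    (hε.2.trans (min_le_left _ _)) (ed_of ha hM b1 hT b) cc ph b σ
  obtain ⟨ν, T2, hT2⟩ := num n K N (C := C) C' T0 (max T1 (4 / 3 * ρ1)) hs hκ c2
  refine ⟨max R1 (max (5 / 2 * T2) (Z b + 3 * w)), fun R hR' => ?_⟩
  simp only [ge_iff_le, max_le_iff] at hR'
  obtain ⟨T', hT', hR⟩ := hR R hR'.1 w ⟨w0, hw.1⟩
  obtain ⟨L, G, ⟨f2, t1, f1, L1, L2, L3, f3, G2, G1, n0⟩, f6, f7, f8⟩ :=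
    hT2 T' (by linarith only [hT'.1, hR'.2.1])
  obtain ⟨f2, f9⟩ := max_le_iff.1 f2
  have t0 : 0 ≤ T' := by linarith only [t1]
  have r1' : R ≤ 5 / 2 * T' := by linarith only [hT'.1]
  obtain ⟨δ', S, Φ, ρ', η, H⟩ := hR L L1 L2 L3
  obtain ⟨δ'', hδ'', Λ, rb, mt, ϑ, π, pl, inj, hΛ, dn⟩ := hE T' L δ' _ _ _ S _ R f1 L2
    (ray_mono H.ray (min_le_left _ _) t0)
  obtain ⟨U, u1, u2, u3⟩ := hV _ _ _ _ _ _ _ _ _ _ _ _ dn
  obtain ⟨p1, -, p2, p3, -, p4⟩ := dn.par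
  obtain ⟨g1, g2, g3⟩ := f8 p1 p4
  have nr := (hT.ends b).par.2
  have ee := hε.2.trans (min_le_right _ _)
  obtain ⟨k1, k2⟩ := hB (T.q' b) σ T' R G ρ' η ⟨nr.1.trans_le ee, nr.2.1.trans_le ee,
    nr.2.2.1.trans_le ee, nr.2.2.2.1, fun i j => (nr.2.2.2.2 i j).trans_le ee⟩ f2 f3
    (bot_mono H.bot (min_le_right _ _) t0)
  have y1 : 1 ≤ C' * T' := one_le_mul_of_one_le_of_one_le p1 t1
  have sl := slab_of (u2 G g1 g2)
  obtain ⟨sb, en⟩ := sb_of (J := J) ha hM hT H pl inj (fun p hp => ⟨(hΛ p hp).1.trans_lt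
    (neg_lt_zero.2 (inv_pos.2 (one_pos.trans_le y1))), (hΛ p hp).2.1.sm.diff, (hΛ p hp).2.2⟩)
    sl.fu u1 (fun z hz => (hx _ (lb_ne b σ z) (by
      rw [lg_lb]; linarith only [hz.1.1, hR'.2.2])).trans
      (by simp only [P354SA.Jt, sub_add_cancel]; rfl) |>.symm) ⟨by linarith only [t1], p2, w0⟩
  refine ⟨T', δ'', G, ν, 3 / 4 * T', _, π, U, _, Φ ∘ sm R Λ, gro_of t0 p2.le
    (by linarith only [G2, t1, p3]) (by linarith only [G2, t1]) n0 (by positivity) dn.cm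
    (by linarith only [g3, mul_le_mul_of_nonneg_left p3 n0.1.le]), sl, by linarith only [f9],
    by linarith only [G2, t0], r1'.trans G2, G1.trans (Real.exp_le_exp.2 (by
      linarith only [mul_le_mul_of_nonneg_left hT'.2 hκ.le])), ⟨k1.sm, k1.inj, fun z hz =>
      ⟨(k1.bd z hz).1, fun i α hα => (k1.bd z hz).2 i α (by omega)⟩, k1.loc⟩, k2, fun z hz => ?_,
    sb, fun p hp => ⟨rfl, (H.pull.1.maps (pl.maps hp)).1, (P354YR.pull_at H.pull.1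
      (pl.maps hp)).comp p (P354YR.pull_at pl hp)⟩, fun p hp h0 => ?_⟩
  · obtain ⟨v1, -, -, v2⟩ := u3 z ⟨⟨by linarith only [hz.1.1, w0], by linarith only [hz.1.2, w0]⟩,
      hz.2.trans (by norm_num)⟩
    exact ⟨v1, v2⟩
  · obtain ⟨a1, a2, -, -, -, -, a3⟩ := H.pt _ (pl.maps hp)
    exact ⟨en p hp h0, a1, a2, fun hr => jt_of C1 t1 y1 r1' (a3 hr).1 (a3 hr).2.1 (a3 hr).2.2
      (hΛ p hp).1 (hΛ p hp).2.1 f6 f7⟩

end Vale.Agent.P354YU
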