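import Vale.Agent.P354YU.Bar
import Vale.Agent.P354XB.Defs
import Vale.Agent.P354J.Sl2

/-!
SUPP: the support of the perturbation in the slab, and all structure equations.
-/

open scoped ContDiff
open Set Filter Topology

noncomputable section

namespace Vale.Agent.P354YU

open Vale.Agent.P354C Vale.Agent.P354C.Ix Vale.Agent.P354IG Vale.Agent.P354XB
open Vale.Agent.P354H (X3 sl)
open Vale.Agent.P354A (cmp Eqn)
open Vale.Agent.P354GT (Fu)
open Vale.Agent.P354n (R4)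

theorem full_constr {U : Ix → ℝ} {dU : Fin 4 → Ix → ℝ} (h : Full U dU) : Constr U dU :=
  ⟨fun s t μ => by simp only [h.tor, mul_zero, Finset.sum_const_zero],
    fun s => by simp only [h.dO, sub_self, mul_zero, Finset.sum_const_zero],
    fun s t j k => by simp only [h.cur, mul_zero, Finset.sum_const_zero]⟩

theorem box_open (a b v0 v1 r : ℝ) : IsOpen (Box a b v0 v1 r) :=
  (isOpen_Ioo.preimage continuous_fst).inter
    ((isOpen_Ioo.preimage (f := fun p : R4 => p.1 + p.2.1) (by fun_prop)).inter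
      (isOpen_lt (f := fun p : R4 => ‖p.2.2‖) (by fun_prop) continuous_const))

theorem bdd {K : R4 → Ix → ℝ} (h : ∀ i, ContDiff ℝ ∞ (cmp K i) ∧ HasCompactSupport (cmp K i)) :
    ∃ M, 0 ≤ M ∧ ∀ q i, |K q i| ≤ M := by
  choose C hC using fun i => (h i).1.continuous.bounded_above_of_compact_support (h i).2
  refine ⟨∑ i, |C i|, Finset.sum_nonneg fun _ _ => abs_nonneg _, fun q i => ?_⟩
  exact ((hC i q).trans (le_abs_self _)).trans
    (Finset.single_le_sum (f := fun i => |C i|) (fun _ _ => abs_nonneg _) (Finset.mem_univ i))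

/-- The angular travel up to the time t. -/
def tr (β : ℝ) (π : ℝ → ℝ) (t : ℝ) : ℝ := 2 / β * ∫ s in (0 : ℝ)..t, π s ^ 2

variable {β T : ℝ} {π : ℝ → ℝ}

theorem tr_der (hπ : Continuous π) (t : ℝ) : HasDerivAt (tr β π) (2 / β * π t ^ 2) t :=
  ((hπ.pow 2).integral_hasStrictDerivAt 0 t).hasDerivAt.const_mul _

theorem tr_cd (hπ : Continuous π) : ContDiff ℝ 1 (tr β π) := by
  refine contDiff_one_iff_deriv.2 ⟨fun t => (tr_der hπ t).differentiableAt, ?_⟩
  rw [show deriv (tr β π) = fun t => 2 / β * π t ^ 2 from funext fun t => (tr_der hπ t).deriv]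
  fun_prop

theorem tr_zero : tr β π 0 = 0 := by simp [tr]

theorem tr_mono (hβ : 0 < β) (hπ : Continuous π) : Monotone (tr β π) :=
  monotone_of_deriv_nonneg (fun t => (tr_der hπ t).differentiableAt) fun t => by
    rw [(tr_der hπ t).deriv]
    positivity

/-- A positive function on a compact part of the slice stays positive for a short time. -/
theorem tube {S : Set R4} (hS : IsOpen S) {v0 v1 r : ℝ} (h : Cl 0 0 v0 v1 r ⊆ S) :
    ∃ δ > 0, Cl (-δ) 0 v0 v1 r ⊆ S := by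
  have c : Continuous fun p : R4 => ((p.1, p.2.1 - p.1, p.2.2) : R4) := by fun_prop
  have k := ((isCompact_Icc (a := v0) (b := v1)).prod
    (isCompact_closedBall (0 : ℝ × ℝ) r)).eventually_forall_of_forall_eventually (x₀ := (0 : ℝ))
      (P := fun t z => ((t, z.1 - t, z.2) : R4) ∈ S) fun z hz =>
        (hS.preimage c).mem_nhds (h ⟨⟨le_rfl, le_rfl⟩, by simpa using hz.1,
          mem_closedBall_zero_iff.1 hz.2⟩)
  obtain ⟨δ, hδ, k⟩ := Metric.eventually_nhds_iff.1 k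
  refine ⟨δ / 2, by linarith, fun p hp => ?_⟩
  have := k (y := p.1) (by
    rw [Real.dist_eq, sub_zero, abs_lt]
    exact ⟨by linarith [hp.1.1], by linarith [hp.1.2]⟩) (p.1 + p.2.1, p.2.2)
    ⟨hp.2.1, mem_closedBall_zero_iff.2 hp.2.2⟩
  simpa using this

theorem supp : SUPP := by
  intro T δ R w β π K W hT hδ hw hβ hπ hs sK sW hE hb hB h0 hC
  have sU : SmU (K + W) univ := fun i => ((sK i).1.add (sW i).1).contDiffOn
  have sK' : SmU K univ := fun i => (sK i).1.contDiffOn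
  have cU : ∀ i, Continuous fun q => (K + W) q i := fun i => ((sK i).1.add (sW i).1).continuous
  obtain ⟨M1, m1, b1'⟩ := bdd sK
  obtain ⟨M2, m2, b2'⟩ := bdd sW
  obtain ⟨M, hM⟩ : ∃ M, M = M1 + M2 := ⟨_, rfl⟩
  have m0 : 0 ≤ M := by linarith
  have bU : ∀ q i, |(K + W) q i| ≤ M := fun q i =>
    (abs_add_le _ _).trans (by linarith [b1' q i, b2' q i])
  change β * (5 * w) + tr β π T < 1 / 2 at hs
  have t0 : ∀ t, 0 ≤ t → 0 ≤ tr β π t := fun t ht => tr_zero.symm.trans_le (tr_mono hβ hπ ht)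
  have t1 : ∀ t, t ≤ T → tr β π t ≤ tr β π T := fun t ht => tr_mono hβ hπ ht
  have bw := mul_pos hβ hw
  have caF : ∀ q : R4, q.1 ∈ Icc 0 T → Ca 1 β (tr β π) (K + W) q := fun q hq =>
    ca_fut hβ (tr_der hπ _) (hb q hq).1 (hb q hq).2.1 (hb q hq).2.2
  have cdP : ContDiff ℝ 1 fun t : ℝ => -(2 * M) * t := by fun_prop
  have cn : ∀ q : R4, (K + W) q = K q → W q = 0 := fun q h => add_eq_left.1 h
  -- the support to the future and to the past
  have zF : ∀ p : R4, p.1 ∈ Icc 0 T → p.1 + p.2.1 < R - w ∨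
      2 - β * (R - w) + β * (p.1 + p.2.1) + tr β π p.1 < ‖p.2.2‖ → W p = 0 := fun p hp h => by
    refine cn p (uq (T := T) (a := R - w) (r := 2 - β * (R - w)) (Or.inl rfl) hβ.le sU sK'
      (tr_cd hπ) (fun q hq => ?_) (fun z hz => ?_) (by rwa [one_mul]) (by rwa [one_mul]))
    · rw [one_mul] at hq
      exact ⟨t0 _ hq.1, hE q ⟨by linarith [hq.1], hq.2⟩, caF q hq⟩
    · refine add_eq_left.2 (h0 z ?_)
      rcases le_total z.1 (R - w) with c | c
      · exact Or.inl c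
      · rw [tr_zero] at hz
        exact Or.inr (by
          rcases hz with hz | hz
          · linarith
          · linarith [mul_le_mul_of_nonneg_left c hβ.le])
  have zP : ∀ p : R4, p.1 ∈ Icc (-δ) 0 → p.2.1 - p.1 < R - w ∨
      2 - 2 * M * p.1 < ‖p.2.2‖ → W p = 0 := fun p hp h => by
    refine cn p (uq (T := δ) (a := R - w) (r := 2) (κ := 0) (Or.inr rfl) le_rfl sU sK' cdP
      (fun q hq => ?_) (fun z hz => ?_) ⟨by linarith [hp.2], by linarith [hp.1]⟩
      (h.imp (fun h => by linarith) fun h => by linarith))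
    · exact ⟨by nlinarith [hq.1], hE q ⟨by linarith [hq.2], by linarith [hq.1]⟩, ca_past (bU q)⟩
    · exact add_eq_left.2 (h0 z (hz.imp le_of_lt fun h => by linarith))
  have zN : ∀ p : R4, p.1 ∈ Ioo (-δ) T → p.2.1 + |p.1| < R - w → K + W =ᶠ[𝓝 p] K :=
    fun p hp h => by
      have o : IsOpen {q : R4 | q.1 ∈ Ioo (-δ) T ∧ q.2.1 + |q.1| < R - w} :=
        (isOpen_Ioo.preimage continuous_fst).inter
          (isOpen_lt (f := fun q : R4 => q.2.1 + |q.1|) (by fun_prop) continuous_const)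
      filter_upwards [o.mem_nhds ⟨hp, h⟩] with q hq
      refine add_eq_left.2 ?_
      rcases le_total 0 q.1 with c | c
      · exact zF q ⟨c, hq.1.2.le⟩ (Or.inl (by linarith [hq.2, le_abs_self q.1]))
      · exact zP q ⟨hq.1.1.le, c⟩ (Or.inl (by linarith [hq.2, neg_le_abs q.1]))
  have fN : ∀ p ∈ Box (-δ) T (R - 2 * w) (R + 3 * w) 5, p.2.1 + |p.1| < R - w →
      Full ((K + W) p) (dfr (K + W) p) := fun p hp h => by
    have e := zN p hp.1 h
    rw [dfr_congr e, e.eq_of_nhds]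
    exact (hB p hp).1
  -- the open set on which the reduced system holds
  obtain ⟨Ω, hΩ⟩ : ∃ Ω : Set R4, Ω = Box (-δ) T (R - 2 * w) (R + 3 * w) 5 ∩
    ({q | 0 < (K + W) q O} ∩ {q | 0 < detP ((K + W) q)}) := ⟨_, rfl⟩
  have oΩ : IsOpen Ω := hΩ ▸ (box_open _ _ _ _ _).inter ((isOpen_lt continuous_const (cU O)).inter
    (isOpen_lt continuous_const (((cU _).mul (cU _)).sub ((cU _).mul (cU _)))))
  have mΩ : ∀ q ∈ Box (-δ) T (R - 2 * w) (R + 3 * w) 5, 0 ≤ q.1 → q ∈ Ω := fun q hq c =>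
    hΩ ▸ ⟨hq, (hB q hq).2.2.2 c⟩
  have sΩ : SmU (K + W) Ω := fun i => (sU i).mono (subset_univ _)
  have vΩ : ∀ q ∈ Ω, detP ((K + W) q) ≠ 0 ∧ Solves (K + W) q := fun q hq => by
    rw [hΩ] at hq
    refine ⟨ne_of_gt hq.2.2, fun i => ?_⟩
    rw [hE q ⟨hq.1.1.1.le, hq.1.1.2.le⟩ i, res, (hB q hq.1).1.eqN, (hB q hq.1).1.eqL, add_zero]
  have c0 : ∀ q ∈ Box (-δ) T (R - 2 * w) (R + 3 * w) 5, q.1 = 0 →
      Constr ((K + W) q) (dfr (K + W) q) := fun q hq c => by
    obtain ⟨t, z⟩ := q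
    obtain rfl : t = 0 := c
    exact (P354J.dslThm (K + W) 0 z fun i =>
      ((sK i).1.add (sW i).1).differentiable (by simp) _).2 (hC z hq)
  -- the future, in steps of the length w / 8
  obtain ⟨c, hc⟩ : ∃ c, c = 9 / 2 + β * (R + 5 / 2 * w) + tr β π T := ⟨_, rfl⟩
  obtain ⟨G, hG⟩ : ∃ G : R4 → Prop, G = fun q => q.1 < T ∧ R - 2 * w < q.1 + q.2.1 ∧
    q.1 + q.2.1 < R + 5 / 2 * w ∧ ‖q.2.2‖ + β * (q.1 + q.2.1) + tr β π q.1 < c := ⟨_, rfl⟩
  have gB : ∀ q, G q → 0 ≤ q.1 → q ∈ Box (-δ) T (R - 2 * w) (R + 3 * w) 5 := fun q hq h => by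
    rw [hG] at hq
    obtain ⟨a1, a2, a3, a4⟩ := hq
    exact ⟨⟨by linarith, a1⟩, ⟨a2, by linarith⟩,
      by linarith [t0 _ h, mul_le_mul_of_nonneg_left a2.le hβ.le]⟩
  have step : ∀ s, 0 ≤ s → (∀ q, G q → q.1 = s → Constr ((K + W) q) (dfr (K + W) q)) →
      ∀ p, G p → p.1 ∈ Icc s (s + w / 8) → Full ((K + W) p) (dfr (K + W) p) :=
    fun s h1 h2 p hp h3 => by
      have p0 : 0 ≤ p.1 := h1.trans h3.1
      rcases lt_or_ge (p.1 + p.2.1) (R - w) with d | d
      · exact fN p (gB p hp p0) (by rw [abs_of_nonneg p0]; linarith)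
      rw [hG] at hp
      refine pr (ε := 1) (κ := β) (B := tr β π) (T := p.1 - s) (t0 := s) (c0 := R + 5 / 2 * w)
        (c1 := 2 * s - (R - 3 / 2 * w)) (c := c)
        (D := Cl s p.1 (R - 3 / 2 * w) (R + 5 / 2 * w) (c - β * (R - 3 / 2 * w))) (Or.inl rfl) oΩ
        (cl_cpt _ _ _ _ _) (fun q hq => mΩ q ?_ (h1.trans hq.1.1)) sΩ vΩ (tr_cd hπ)
        (fun q hq hq' => ?_) (fun q hq hq' => h2 q ?_ hq) ⟨by linarith [h3.1], by linarith⟩
        ⟨by linarith [hp.2.2.1], by linarith [h3.2], hp.2.2.2⟩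
      · obtain ⟨⟨a1, a2⟩, ⟨a3, a4⟩, a5⟩ := hq
        exact ⟨⟨by linarith, by linarith [hp.1]⟩, ⟨by linarith, by linarith⟩, by linarith⟩
      · obtain ⟨a1, a2⟩ := hq
        obtain ⟨a3, a4, a5⟩ := hq'
        have a6 : R - 3 / 2 * w ≤ q.1 + q.2.1 := by linarith
        refine ⟨⟨⟨by linarith, by linarith⟩, ⟨a6, by linarith⟩, ?_⟩,
          caF q ⟨by linarith, by linarith [hp.1]⟩⟩
        linarith [t0 q.1 (by linarith), mul_le_mul_of_nonneg_left a6 hβ.le]
      · obtain ⟨a3, a4, a5⟩ := hq'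
        rw [hG]
        exact ⟨by linarith [hp.1, h3.1], by linarith, by linarith, a5⟩
  have ind : ∀ k : ℕ, ∀ q, G q → q.1 = k * (w / 8) → Constr ((K + W) q) (dfr (K + W) q) := by
    intro k
    induction k with
    | zero =>
      intro q hq e
      rw [Nat.cast_zero, zero_mul] at e
      exact c0 q (gB q hq e.ge) e
    | succ k ih =>
      intro q hq e
      push_cast at e
      exact full_constr (step (k * (w / 8)) (by positivity) ih q hq ⟨by linarith, by linarith⟩)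
  have fF : ∀ p, G p → 0 ≤ p.1 → Full ((K + W) p) (dfr (K + W) p) := fun p hp h => by
    have w8 : 0 < w / 8 := by positivity
    have a1 := (le_div_iff₀ w8).1 (Nat.floor_le (div_nonneg h w8.le))
    have a2 := (div_lt_iff₀ w8).1 (Nat.lt_floor_add_one (p.1 / (w / 8)))
    exact step _ (by positivity) (ind ⌊p.1 / (w / 8)⌋₊) p hp ⟨a1, by linarith⟩
  -- the past
  obtain ⟨δ1, d1, hδ1⟩ := tube oΩ (v0 := R - 3 / 2 * w) (v1 := R + 11 / 4 * w) (r := 19 / 4)
    fun q hq => by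
      obtain ⟨⟨a1, a2⟩, ⟨a3, a4⟩, a5⟩ := hq
      exact mΩ q ⟨⟨by linarith, by linarith⟩, ⟨by linarith, by linarith⟩, by linarith⟩ a1
  obtain ⟨δ', e0, e1, e2, e3, e4⟩ : ∃ δ' > 0, δ' ≤ δ ∧ δ' ≤ δ1 ∧ δ' ≤ w / 8 ∧ 2 * M * δ' ≤ 1 / 4 := by
    have m : 0 < 1 / (8 * (M + 1)) := by positivity
    refine ⟨min (min δ δ1) (min (w / 8) (1 / (8 * (M + 1)))), by positivity,
      (min_le_left _ _).trans (min_le_left _ _), (min_le_left _ _).trans (min_le_right _ _),
      (min_le_right _ _).trans (min_le_left _ _), ?_⟩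
    refine (mul_le_mul_of_nonneg_left ((min_le_right _ _).trans (min_le_right _ _))
      (by positivity)).trans ?_
    rw [mul_one_div, div_le_iff₀ (by positivity)]
    linarith
  have sub : ∀ p ∈ Box (-δ') T (R - 2 * w) (R + 5 / 2 * w) (9 / 2),
      p ∈ Box (-δ) T (R - 2 * w) (R + 3 * w) 5 := fun p hp =>
    ⟨⟨by linarith [hp.1.1], hp.1.2⟩, ⟨hp.2.1.1, by linarith [hp.2.1.2]⟩, by linarith [hp.2.2]⟩
  have key : ∀ p ∈ Box (-δ') T (R - 2 * w) (R + 5 / 2 * w) (9 / 2),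
      p ∈ Ω ∧ Full ((K + W) p) (dfr (K + W) p) := fun p hp => by
    have hq := sub p hp
    obtain ⟨⟨a1, a2⟩, ⟨a3, a4⟩, a5⟩ := hp
    rcases le_total 0 p.1 with d | d
    · refine ⟨mΩ p hq d, fF p ?_ d⟩
      rw [hG]
      exact ⟨a2, a3, a4, by linarith [t1 _ a2.le, mul_le_mul_of_nonneg_left a4.le hβ.le]⟩
    rcases le_or_gt (p.1 + p.2.1) (R - 3 / 2 * w) with f | f
    · have g : p.2.1 + |p.1| < R - w := by rw [abs_of_nonpos d]; linarith
      refine ⟨?_, fN p hq g⟩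
      rw [hΩ]
      refine ⟨hq, ?_⟩
      simp only [mem_inter_iff, mem_ofPred_eq, (zN p hq.1 g).eq_of_nhds]
      exact ⟨(hB p hq).2.1, (hB p hq).2.2.1⟩
    have g := mul_le_mul_of_nonneg_left a1.le m0
    refine ⟨hδ1 ⟨⟨by linarith, d⟩, ⟨f.le, by linarith⟩, by linarith⟩, ?_⟩
    refine pr (ε := -1) (κ := 0) (B := fun t => -(2 * M) * t) (T := δ1) (t0 := 0)
      (c0 := R + 11 / 4 * w) (c1 := -(R - 3 / 2 * w)) (c := 19 / 4) (Or.inr rfl) oΩ
      (cl_cpt _ _ _ _ _) hδ1 sΩ vΩ cdP (fun q hq hq' => ⟨?_, ca_past (bU q)⟩)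
      (fun q hq hq' => c0 q ?_ hq) ⟨by linarith, by linarith⟩
      ⟨by linarith, by linarith, by linarith⟩
    · obtain ⟨b1, b2⟩ := hq
      obtain ⟨b3, b4, b5⟩ := hq'
      exact ⟨⟨by linarith, by linarith⟩, ⟨by linarith, by linarith⟩,
        by nlinarith [mul_nonneg m0 b1]⟩
    · obtain ⟨b3, b4, b5⟩ := hq'
      simp only [hq] at b3 b4 b5
      exact ⟨⟨by linarith, by linarith⟩, ⟨by linarith, by linarith⟩, by linarith⟩
  refine ⟨δ', ⟨e0, e1⟩, ⟨fun i => (sU i).mono (subset_univ _), fun p hp => ?_⟩, fun p hp => ?_⟩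
  · obtain ⟨k1, k2⟩ := key p hp
    rw [hΩ] at k1
    exact ⟨k1.2.1, ne_of_gt k1.2.2, k2⟩
  · obtain ⟨k1, -⟩ := key p hp
    rw [hΩ] at k1
    refine ⟨k1.2.2, fun h => ?_⟩
    obtain ⟨⟨a1, a2⟩, ⟨a3, a4⟩, a5⟩ := hp
    rcases le_total 0 p.1 with d | d
    · exact zF p ⟨d, a2.le⟩ (h.imp (fun h => by linarith) fun h => by
        linarith [t1 _ a2.le, mul_le_mul_of_nonneg_left a4.le hβ.le])
    · exact zP p ⟨by linarith, d⟩ (h.imp (fun h => by linarith) fun h => by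
        linarith [mul_le_mul_of_nonneg_left a1.le m0])

end Vale.Agent.P354YU
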