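import Vale.Agent.P354IG.Glue
import Vale.Agent.P354C.Propag

/-!
Barriers for a long thin slab: uniqueness and propagation of the constraints in the domains
eps tau + x < c0, eps tau - x < c1, |y| + kap v + B tau < c.
-/

open scoped ContDiff
open Set Filter Topology

noncomputable section

namespace Vale.Agent.P354YU

open Vale.Agent.P354C Vale.Agent.P354C.Ix Vale.Agent.P354IG
open Vale.Agent.P354H (X3)
open Vale.Agent.P354n (R4)

/-- The six barriers. -/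
def vl (ε κ : ℝ) (B : ℝ → ℝ) : Fin 6 → R4 → ℝ :=
  ![fun q => lf ε 1 0 0 q, fun q => lf ε (-1) 0 0 q, fun q => lf κ κ 1 0 q + B q.1,
    fun q => lf κ κ (-1) 0 q + B q.1, fun q => lf κ κ 0 1 q + B q.1,
    fun q => lf κ κ 0 (-1) q + B q.1]

/-- The angular barriers are causal at q. -/
def Ca (ε κ : ℝ) (B : ℝ → ℝ) (U : R4 → Ix → ℝ) (q : R4) : Prop :=
  ∀ c d C : ℝ, |c| + |d| ≤ 1 → Causal ε U (fun z => lf κ κ c d z + B z.1 - C) q

variable {ε κ T : ℝ} {B : ℝ → ℝ} {U U' : R4 → Ix → ℝ}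

theorem vl_cd (hB : ContDiff ℝ 1 B) (c : Fin 6 → ℝ) (i : Fin 6) :
    ContDiff ℝ 1 fun q => vl ε κ B i q - c i := by
  have h : ContDiff ℝ 1 fun q : R4 => B q.1 := hB.comp contDiff_fst
  refine ContDiff.sub ?_ contDiff_const
  fin_cases i
  · exact ContinuousLinearMap.contDiff _
  · exact ContinuousLinearMap.contDiff _
  all_goals exact (ContinuousLinearMap.contDiff _).add h

theorem vl_ca (hε : ε = 1 ∨ ε = -1) {q : R4} (h : Ca ε κ B U q) (c : Fin 6 → ℝ) (i : Fin 6) :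
    Causal ε U (fun q => vl ε κ B i q - c i) q := by
  fin_cases i
  · exact causal_x hε (Or.inl rfl) U _ q
  · exact causal_x hε (Or.inr rfl) U _ q
  all_goals exact h _ _ _ (by simp)

theorem vl_iff {c : Fin 6 → ℝ} {q : R4} : (∀ i, vl ε κ B i q - c i < 0) ↔
    ε * q.1 + q.2.1 < c 0 ∧ ε * q.1 - q.2.1 < c 1 ∧
      κ * (q.1 + q.2.1) + B q.1 + q.2.2.1 < c 2 ∧ κ * (q.1 + q.2.1) + B q.1 - q.2.2.1 < c 3 ∧
      κ * (q.1 + q.2.1) + B q.1 + q.2.2.2 < c 4 ∧ κ * (q.1 + q.2.1) + B q.1 - q.2.2.2 < c 5 := by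
  simp only [Fin.forall_fin_succ, IsEmpty.forall_iff, and_true, vl, Matrix.cons_val_zero,
    Matrix.cons_val_succ, lf_ap, Fin.succ_zero_eq_one, Fin.succ_one_eq_two, Fin.reduceSucc]
  refine and_congr ?_ (and_congr ?_ (and_congr ?_ (and_congr ?_ (and_congr ?_ ?_)))) <;>
    constructor <;> intro h <;> linarith

theorem fd_bar {b : ℝ} {q : R4} (hB : HasDerivAt B b q.1) (c d C : ℝ) :
    fderiv ℝ (fun z : R4 => lf κ κ c d z + B z.1 - C) q = lf (κ + b) κ c d := by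
  have h := (((lf κ κ c d).hasFDerivAt (x := q)).add
    (hB.comp_hasFDerivAt q hasFDerivAt_fst)).sub_const C
  refine h.fderiv.trans (ContinuousLinearMap.ext fun v => ?_)
  simp only [add_apply, smul_apply, lf_ap, ContinuousLinearMap.coe_fst', smul_eq_mul]
  ring

theorem comb {c d x y m : ℝ} (hc : |c| + |d| ≤ 1) (hx : |x| ≤ m) (hy : |y| ≤ m) :
    |c * x + d * y| ≤ m := by
  refine (abs_add_le _ _).trans ?_
  rw [abs_mul, abs_mul]
  nlinarith [abs_nonneg c, abs_nonneg d, mul_le_mul_of_nonneg_left hx (abs_nonneg c),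
    mul_le_mul_of_nonneg_left hy (abs_nonneg d), abs_nonneg x]

/-- To the future: the speed of the barrier is given by the square of P. -/
theorem ca_fut {β π : ℝ} {q : R4} (hβ : 0 < β) (hB : HasDerivAt B (2 / β * π ^ 2) q.1)
    (h1 : |U q b1| ≤ β) (h2 : |U q b2| ≤ β) (h3 : ∀ i ∈ [P11, P12, P21, P22], |U q i| ≤ π) :
    Ca 1 β B U q := by
  intro c d C hc
  have k1 := abs_le.1 (comb hc h1 h2)
  have k2 := abs_le.1 (comb hc (h3 P11 (by simp)) (h3 P12 (by simp)))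
  have k3 := abs_le.1 (comb hc (h3 P21 (by simp)) (h3 P22 (by simp)))
  have k4 := sq_le_sq' k2.1 k2.2
  have k5 := sq_le_sq' k3.1 k3.2
  have hb : 0 ≤ 2 / β * π ^ 2 := by positivity
  have he : β * (2 / β * π ^ 2) = 2 * π ^ 2 := by field_simp
  unfold Causal
  rw [fd_bar hB]
  generalize 2 / β * π ^ 2 = b at *
  simp only [lf_ap, fr, vec, E, Matrix.cons_val]
  refine ⟨by linarith, by linarith, ?_⟩
  nlinarith [mul_le_mul_of_nonneg_left k1.1 hb]

/-- To the past: a crude bound. -/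
theorem ca_past {M : ℝ} {q : R4} (h : ∀ i, |U q i| ≤ M) : Ca (-1) 0 (fun t => -(2 * M) * t) U q := by
  intro c d C hc
  have e : (fun z : R4 => lf 0 0 c d z + -(2 * M) * z.1 - C) =
      fun z => lf (2 * M * (-1)) 0 c d z - C := by
    funext z
    simp only [lf_ap]
    ring
  rw [e]
  exact causal_y (Or.inr rfl) hc C h

/-- Uniqueness behind one barrier. -/
theorem uq1 (hε : ε = 1 ∨ ε = -1) (hκ : 0 ≤ κ) (hU : SmU U univ) (hU' : SmU U' univ)
    (hB : ContDiff ℝ 1 B)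
    (H : ∀ q : R4, ε * q.1 ∈ Icc 0 T → 0 ≤ B q.1 ∧
      (∀ i, res (U q) (dfr U q) i = res (U' q) (dfr U' q) i) ∧ Ca ε κ B U q)
    {p : R4} (hp : ε * p.1 ∈ Icc 0 T) (i : Fin 6) {C : ℝ} (hi : vl ε κ B i p < C)
    (h0 : ∀ z : X3, vl ε κ B i (0, z) < C → U (0, z) = U' (0, z)) : U p = U' p := by
  classical
  obtain ⟨c, hc⟩ : ∃ c : Fin 6 → ℝ, c = Function.update (fun j => vl ε κ B j p + 1) i C := ⟨_, rfl⟩
  have ci : c i = C := by rw [hc, Function.update_self]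
  obtain ⟨N, hN⟩ : ∃ N, N = T + |c 0| + |c 1| := ⟨_, rfl⟩
  have e3 : ∀ t : ℝ, |t| = |ε * t| := fun t => by rcases hε with rfl | rfl <;> simp
  refine uni2 (φ := fun j q => vl ε κ B j q - c j)
    (D := Metric.closedBall 0 (N + κ * (2 * N) + |c 2| + |c 3| + |c 4| + |c 5|)) (t0 := 0) (T := T)
    hε isOpen_univ (isCompact_closedBall _ _) (subset_univ _) hU hU' (vl_cd hB c)
    (fun q hq hq' => ?_) (fun q hq hq' => ?_) p (by simpa using hp) fun j => ?_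
  · rw [sub_zero] at hq
    obtain ⟨k0, k1, k2⟩ := H q hq
    refine ⟨?_, k1, vl_ca hε k2 c⟩
    obtain ⟨a0, a1, a2, a3, a4, a5⟩ := vl_iff.1 hq'
    have t1 : |q.1| ≤ T := by rw [e3, abs_of_nonneg hq.1]; exact hq.2
    have t2 := abs_le.1 t1
    have d0 := le_abs_self (c 0)
    have d1 := le_abs_self (c 1)
    have d2 := le_abs_self (c 2)
    have d3 := le_abs_self (c 3)
    have d4 := le_abs_self (c 4)
    have d5 := le_abs_self (c 5)
    have f0 := abs_nonneg (c 0)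
    have f1 := abs_nonneg (c 1)
    have f2 := abs_nonneg (c 2)
    have f3 := abs_nonneg (c 3)
    have f4 := abs_nonneg (c 4)
    have f5 := abs_nonneg (c 5)
    have g1 : κ * (-(2 * N)) ≤ κ * (q.1 + q.2.1) :=
      mul_le_mul_of_nonneg_left (by linarith [hq.1, hq.2]) hκ
    have g2 : 0 ≤ κ * (2 * N) := mul_nonneg hκ (by linarith [hq.1, hq.2])
    rw [mem_closedBall_zero_iff]
    simp only [Prod.norm_def, Real.norm_eq_abs, max_le_iff]
    refine ⟨abs_le.2 ⟨?_, ?_⟩, abs_le.2 ⟨?_, ?_⟩, abs_le.2 ⟨?_, ?_⟩, abs_le.2 ⟨?_, ?_⟩⟩ <;>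
      linarith [hq.1, hq.2]
  · obtain ⟨t, z⟩ := q
    obtain rfl : t = 0 := hq
    exact h0 z (by have := hq' i; rw [ci] at this; linarith)
  · by_cases e : j = i
    · rw [e, ci]
      linarith
    · simp only [hc, Function.update_of_ne e]
      linarith

/-- Uniqueness to the left of a null hypersurface and outside of a tube. -/
theorem uq (hε : ε = 1 ∨ ε = -1) (hκ : 0 ≤ κ) (hU : SmU U univ) (hU' : SmU U' univ)
    (hB : ContDiff ℝ 1 B)
    (H : ∀ q : R4, ε * q.1 ∈ Icc 0 T → 0 ≤ B q.1 ∧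
      (∀ i, res (U q) (dfr U q) i = res (U' q) (dfr U' q) i) ∧ Ca ε κ B U q) {a r : ℝ}
    (h0 : ∀ z : X3, z.1 < a ∨ r + κ * z.1 + B 0 < ‖z.2‖ → U (0, z) = U' (0, z))
    {p : R4} (hp : ε * p.1 ∈ Icc 0 T)
    (h : ε * p.1 + p.2.1 < a ∨ r + κ * (p.1 + p.2.1) + B p.1 < ‖p.2.2‖) : U p = U' p := by
  have n1 : ∀ y : ℝ × ℝ, |y.1| ≤ ‖y‖ := fun y => norm_fst_le y
  have n2 : ∀ y : ℝ × ℝ, |y.2| ≤ ‖y‖ := fun y => norm_snd_le y
  rcases h with h | h
  · refine uq1 hε hκ hU hU' hB H hp 0 (C := a) ?_ fun z hz => h0 z (Or.inl ?_)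
    · simp only [vl, Matrix.cons_val, lf_ap]
      linarith
    · simp only [vl, Matrix.cons_val, lf_ap] at hz
      linarith
  rw [Prod.norm_def, lt_max_iff, Real.norm_eq_abs, Real.norm_eq_abs, lt_abs, lt_abs] at h
  rcases h with (h | h) | h | h
  · refine uq1 hε hκ hU hU' hB H hp 3 (C := -r) ?_ fun z hz => h0 z (Or.inr ?_)
    · simp only [vl, Matrix.cons_val, lf_ap]
      linarith
    · simp only [vl, Matrix.cons_val, lf_ap] at hz
      linarith [abs_le.1 (n1 z.2)]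
  · refine uq1 hε hκ hU hU' hB H hp 2 (C := -r) ?_ fun z hz => h0 z (Or.inr ?_)
    · simp only [vl, Matrix.cons_val, lf_ap]
      linarith
    · simp only [vl, Matrix.cons_val, lf_ap] at hz
      linarith [abs_le.1 (n1 z.2)]
  · refine uq1 hε hκ hU hU' hB H hp 5 (C := -r) ?_ fun z hz => h0 z (Or.inr ?_)
    · simp only [vl, Matrix.cons_val, lf_ap]
      linarith
    · simp only [vl, Matrix.cons_val, lf_ap] at hz
      linarith [abs_le.1 (n2 z.2)]
  · refine uq1 hε hκ hU hU' hB H hp 4 (C := -r) ?_ fun z hz => h0 z (Or.inr ?_)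
    · simp only [vl, Matrix.cons_val, lf_ap]
      linarith
    · simp only [vl, Matrix.cons_val, lf_ap] at hz
      linarith [abs_le.1 (n2 z.2)]

/-- The domain of the barriers. -/
def In (ε κ : ℝ) (B : ℝ → ℝ) (c0 c1 c : ℝ) (q : R4) : Prop :=
  ε * q.1 + q.2.1 < c0 ∧ ε * q.1 - q.2.1 < c1 ∧ ‖q.2.2‖ + κ * (q.1 + q.2.1) + B q.1 < c

/-- The closed box. -/
def Cl (a b v0 v1 r : ℝ) : Set R4 :=
  {p | p.1 ∈ Icc a b ∧ p.1 + p.2.1 ∈ Icc v0 v1 ∧ ‖p.2.2‖ ≤ r}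

theorem cl_cpt (a b v0 v1 r : ℝ) : IsCompact (Cl a b v0 v1 r) := by
  have h := (isCompact_Icc (a := a) (b := b)).prod ((isCompact_Icc (a := v0) (b := v1)).prod
    (isCompact_closedBall (0 : ℝ × ℝ) r))
  have c : Continuous fun p : R4 => ((p.1, p.2.1 - p.1, p.2.2) : R4) := by fun_prop
  have e : Cl a b v0 v1 r = (fun p : R4 => ((p.1, p.2.1 - p.1, p.2.2) : R4)) ''
      (Icc a b ×ˢ Icc v0 v1 ×ˢ Metric.closedBall (0 : ℝ × ℝ) r) := by
    ext p
    constructor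
    · rintro ⟨h1, h2, h3⟩
      exact ⟨(p.1, p.1 + p.2.1, p.2.2), ⟨h1, h2, mem_closedBall_zero_iff.2 h3⟩, by simp⟩
    · rintro ⟨q, ⟨h1, h2, h3⟩, rfl⟩
      exact ⟨h1, by simpa using h2, mem_closedBall_zero_iff.1 h3⟩
  rw [e]
  exact h.image c

/-- Propagation of the constraints in the domain of the barriers. -/
theorem pr (hε : ε = 1 ∨ ε = -1) {Ω D : Set R4} {t0 c0 c1 c : ℝ} (hΩ : IsOpen Ω)
    (hD : IsCompact D) (hs : D ⊆ Ω) (hU : SmU U Ω) (hS : ∀ p ∈ Ω, detP (U p) ≠ 0 ∧ Solves U p)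
    (hB : ContDiff ℝ 1 B)
    (H : ∀ q : R4, ε * (q.1 - t0) ∈ Icc 0 T → In ε κ B c0 c1 c q → q ∈ D ∧ Ca ε κ B U q)
    (h0 : ∀ q : R4, q.1 = t0 → In ε κ B c0 c1 c q → Constr (U q) (dfr U q))
    {p : R4} (hp : ε * (p.1 - t0) ∈ Icc 0 T) (h : In ε κ B c0 c1 c p) :
    Full (U p) (dfr U p) := by
  have k : ∀ q : R4, (∀ i, vl ε κ B i q - ![c0, c1, c, c, c, c] i < 0) ↔ In ε κ B c0 c1 c q :=
    fun q => by
      rw [vl_iff]
      simp only [Matrix.cons_val, In]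
      refine and_congr_right fun _ => and_congr_right fun _ => ?_
      rw [add_assoc ‖q.2.2‖, ← lt_sub_iff_add_lt (a := ‖q.2.2‖), Prod.norm_def, max_lt_iff,
        Real.norm_eq_abs, Real.norm_eq_abs, abs_lt, abs_lt]
      constructor
      · rintro ⟨a2, a3, a4, a5⟩
        exact ⟨⟨by linarith, by linarith⟩, by linarith, by linarith⟩
      · rintro ⟨⟨a2, a3⟩, a4, a5⟩
        exact ⟨by linarith, by linarith, by linarith, by linarith⟩
  exact propag U (Fin 6) (fun i q => vl ε κ B i q - ![c0, c1, c, c, c, c] i) Ω D ε t0 T hε hΩ hD hs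
    hU hS (vl_cd hB _) (fun q hq hq' => ⟨(H q hq ((k q).1 hq')).1,
      vl_ca hε (H q hq ((k q).1 hq')).2 _⟩) (fun q hq hq' => h0 q hq ((k q).1 hq')) p hp ((k p).2 h)

end Vale.Agent.P354YU
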