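import Vale.Agent.P354YU.HhF

/-!
The second fundamental forms and the curvature in terms of the metric.
-/

set_option linter.all false

open scoped ContDiff
open Set Filter Topology

noncomputable section

namespace Vale.Agent.P354YU

open Vale.Agent.P354n (R4)
open Vale.Agent.P354C Vale.Agent.P354C.Ix
open Vale.Agent.P354RC (Rm)
open Vale.Agent.P354XD (tb)
open Vale.Agent.P354XE (Tw)
open Vale.Agent.P354XM (ML ml_Rm)
open Vale.Agent.P354SA (ey yc dv gm dg gi bb lv O2 lie fv rie)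

/-- A symmetric form with the entries a, b, c on two vectors. -/
def qf {A : Type} [CommRing A] (a b c x y z w : A) : A := a * (x * z) + b * (x * w + y * z) + c * (y * w)

section alg
variable {u : Ix → ℝ} {d : Fin 4 → Ix → ℝ}

theorem n_P (f : Full u d) :
    d 1 P11 = u omb * u P11 - 2 * (u Y11 * u P11 + u Y21 * u P21) ∧
    d 1 P12 = u omb * u P12 - 2 * (u Y11 * u P12 + u Y21 * u P22) ∧
    d 1 P21 = u omb * u P21 - 2 * (u Y12 * u P11 + u Y22 * u P21) ∧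
    d 1 P22 = u omb * u P22 - 2 * (u Y12 * u P12 + u Y22 * u P22) := by
  have h1 := f.eqN P11
  have h2 := f.eqN P12
  have h3 := f.eqN P21
  have h4 := f.eqN P22
  simp only [resN, cN, angN, linN, quadN, angS, linS, quadS, List.map, List.sum_cons, List.sum_nil,
    Int.cast_ofNat, Int.cast_neg, Int.cast_one, Int.reduceNeg] at h1 h2 h3 h4
  exact ⟨by linarith, by linarith, by linarith, by linarith⟩

theorem l_P (f : Full u d) :
    d 0 P11 = d 2 b1 + (u om - 2 * u X11) * u P11 + (u r0 - 2 * u X21) * u P21 ∧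
    d 0 P12 = d 2 b2 + (u om - 2 * u X11) * u P12 + (u r0 - 2 * u X21) * u P22 ∧
    d 0 P21 = d 3 b1 + (-u r0 - 2 * u X12) * u P11 + (u om - 2 * u X22) * u P21 ∧
    d 0 P22 = d 3 b2 + (-u r0 - 2 * u X12) * u P12 + (u om - 2 * u X22) * u P22 ∧
    u X12 = u X21 ∧ u Y12 = u Y21 := by
  have h0 := f.tor 0 2 0
  have h1 := f.tor 0 2 2
  have h2 := f.tor 0 2 3
  have h5 := f.tor 0 3 0
  have h3 := f.tor 0 3 2
  have h4 := f.tor 0 3 3
  have h6 := f.tor 2 3 0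
  have h7 := f.tor 2 3 1
  simp only [torC, dEof, E, Gam, Fin.sum_univ_four, Matrix.cons_val, Matrix.cons_val_zero,
    Matrix.cons_val_one, Fin.isValue] at h0 h1 h2 h3 h4 h5 h6 h7
  refine ⟨?_, ?_, ?_, ?_, by linarith, by linarith⟩
  · linear_combination u b1 * h0 - h1
  · linear_combination u b2 * h0 - h2
  · linear_combination u b1 * h5 - h3
  · linear_combination u b2 * h5 - h4

/-- The Weyl components from the values of the curvature. -/
def wf {A : Type} [CommRing A] (R : Fin 4 → Fin 4 → Fin 4 → Fin 4 → A) : Ix → A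
  | .a1 => R 0 2 2 0
  | .a2 => R 0 3 2 0
  | .be1 => -R 2 3 3 0
  | .be2 => R 2 3 2 0
  | .rho => R 2 3 3 2 * (-1)
  | .sig => R 1 3 2 0
  | .bb1 => R 2 3 3 1
  | .bb2 => -R 2 3 2 1
  | .ab1 => R 1 2 2 1
  | .ab2 => R 1 3 2 1
  | _ => 0

theorem wf_eq (w : ℝ) (i : Ix) (hi : P354Q.isW i = true) :
    wf (fun x y k j => w * eta (fun i => Wy u i k x y) fun i => if i = j then 1 else 0) i =
      2 * w * u i := by
  cases i <;> first
    | exact absurd hi (by decide)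
    | (simp [wf, eta, Wy, asym]; try ring)

end alg

theorem fr_0 (u : Ix → ℝ) : fr u 0 = nv + (2 : ℝ) • ev 0 + u b1 • ev 1 + u b2 • ev 2 := by
  ext <;> simp [fr, vec, E, nv, ev, P354H.e]
  norm_num
theorem fr_2 (u : Ix → ℝ) : fr u 2 = u P11 • ev 1 + u P12 • ev 2 := by
  ext <;> simp [fr, vec, E, ev, P354H.e]
theorem fr_3 (u : Ix → ℝ) : fr u 3 = u P21 • ev 1 + u P22 • ev 2 := by
  ext <;> simp [fr, vec, E, ev, P354H.e]

/-- The frame in terms of l, n and the coordinate vectors. -/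
def Mf {A : Type} [CommRing A] (u : Ix → A) : Fin 4 → Fin 4 → A :=
  ![![1, 0, 0, 0], ![0, 1, 0, 0], ![0, 0, u P11, u P12], ![0, 0, u P21, u P22]]

namespace Dn
variable {T : ℝ} {h : Tw} {D : Set R4} (H : Dn T h D) {p : R4}
include H

theorem on (hp : p ∈ D) :
    qf (gm h 0 0 p) (gm h 0 1 p) (gm h 1 1 p) (Uh T h p P11) (Uh T h p P12) (Uh T h p P11)
      (Uh T h p P12) = Uh T h p O * Uh T h p O ∧
    qf (gm h 0 0 p) (gm h 0 1 p) (gm h 1 1 p) (Uh T h p P11) (Uh T h p P12) (Uh T h p P21)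
      (Uh T h p P22) = 0 ∧
    qf (gm h 0 0 p) (gm h 0 1 p) (gm h 1 1 p) (Uh T h p P21) (Uh T h p P22) (Uh T h p P21)
      (Uh T h p P22) = Uh T h p O * Uh T h p O := by
  obtain ⟨r0, r1, r2, r3⟩ := H.root hp
  have o0 := pow_ne_zero 2 (H.o_pos hp).ne'
  rw [eq_div_iff (H.s_pos hp).ne', detP] at r0
  change qf _ _ _ (Vh T h p P11) (Vh T h p P12) (Vh T h p P11) (Vh T h p P12) = Oq h p * Oq h p ∧
    qf _ _ _ (Vh T h p P11) (Vh T h p P12) (Vh T h p P21) (Vh T h p P22) = 0 ∧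
    qf _ _ _ (Vh T h p P21) (Vh T h p P22) (Vh T h p P21) (Vh T h p P22) = Oq h p * Oq h p
  simp only [qf]
  generalize Vh T h p P11 = x at *
  generalize Vh T h p P12 = y at *
  generalize Vh T h p P21 = z at *
  generalize Vh T h p P22 = w at *
  refine ⟨mul_left_cancel₀ o0 ?_, mul_left_cancel₀ o0 ?_, mul_left_cancel₀ o0 ?_⟩
  · linear_combination -(x * x) * r3 + 2 * x * y * r2 - y * y * r1 +
      ((x * w - y * z) * sq h p + Oq h p ^ 2) * r0
  · linear_combination -(x * z) * r3 + (x * w + y * z) * r2 - y * w * r1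
  · linear_combination -(z * z) * r3 + 2 * z * w * r2 - w * w * r1 +
      ((x * w - y * z) * sq h p + Oq h p ^ 2) * r0

theorem dq (hp : p ∈ D) (k : Fin 4) (i j i' j' : Ix) {f : R4 → ℝ} {f' : ℝ}
    (hf : HasDerivAt (fun t : ℝ => f (p + t • fr (Uh T h p) k)) f' 0)
    (e : ∀ q ∈ D, qf (gm h 0 0 q) (gm h 0 1 q) (gm h 1 1 q) (Uh T h q i) (Uh T h q j) (Uh T h q i')
      (Uh T h q j') = f q) :
    qf (dv (fr (Uh T h p) k) (gm h 0 0) p) (dv (fr (Uh T h p) k) (gm h 0 1) p)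
        (dv (fr (Uh T h p) k) (gm h 1 1) p) (Uh T h p i) (Uh T h p j) (Uh T h p i') (Uh T h p j') +
      qf (gm h 0 0 p) (gm h 0 1 p) (gm h 1 1 p) (dfr (Uh T h) p k i) (dfr (Uh T h) p k j)
        (Uh T h p i') (Uh T h p j') +
      qf (gm h 0 0 p) (gm h 0 1 p) (gm h 1 1 p) (Uh T h p i) (Uh T h p j) (dfr (Uh T h) p k i')
        (dfr (Uh T h) p k j') = f' := by
  have g := fun a b => nd H.op (H.sm_g a b) hp (fr (Uh T h p) k)
  have u : ∀ i, HasDerivAt (fun t : ℝ => Uh T h (p + t • fr (Uh T h p) k) i)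
    (dfr (Uh T h) p k i) 0 := fun i => nd H.op (H.fu.1 i) hp _
  have m : ∀ᶠ t : ℝ in 𝓝 0, p + t • fr (Uh T h p) k ∈ D :=
    ContinuousAt.eventually_mem (by fun_prop) (by simpa using H.op.mem_nhds hp)
  refine Eq.trans ?_ ((((((g 0 0).mul ((u i).mul (u i'))).add ((g 0 1).mul
    (((u i).mul (u j')).add ((u j).mul (u i'))))).add ((g 1 1).mul ((u j).mul (u j')))).congr_of_eventuallyEq
      (m.mono fun t ht => (e _ ht).symm)).unique hf)
  simp only [qf, zero_smul, add_zero, Pi.add_apply, Pi.mul_apply]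
  ring

theorem dO (hp : p ∈ D) (k : Fin 4) : HasDerivAt (fun t : ℝ => (fun q => Uh T h q O * Uh T h q O)
    (p + t • fr (Uh T h p) k)) (2 * Uh T h p O ^ 2 * sg (Uh T h p) k) 0 := by
  have u : HasDerivAt (fun t : ℝ => Uh T h (p + t • fr (Uh T h p) k) O)
    (dfr (Uh T h) p k O) 0 := nd H.op (H.fu.1 O) hp _
  refine (u.mul u).congr_deriv ?_
  simp only [zero_smul, add_zero, (H.fu.2 p hp).2.2.dO]
  ring

theorem Y_eq (hp : p ∈ D) :
    4 * Uh T h p O ^ 2 * Uh T h p Y11 = qf (dv nv (gm h 0 0) p) (dv nv (gm h 0 1) p)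
      (dv nv (gm h 1 1) p) (Uh T h p P11) (Uh T h p P12) (Uh T h p P11) (Uh T h p P12) ∧
    4 * Uh T h p O ^ 2 * Uh T h p Y12 = qf (dv nv (gm h 0 0) p) (dv nv (gm h 0 1) p)
      (dv nv (gm h 1 1) p) (Uh T h p P11) (Uh T h p P12) (Uh T h p P21) (Uh T h p P22) ∧
    4 * Uh T h p O ^ 2 * Uh T h p Y22 = qf (dv nv (gm h 0 0) p) (dv nv (gm h 0 1) p)
      (dv nv (gm h 1 1) p) (Uh T h p P21) (Uh T h p P22) (Uh T h p P21) (Uh T h p P22) := by
  have f := (H.fu.2 p hp).2.2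
  obtain ⟨n1, n2, n3, n4⟩ := n_P f
  obtain ⟨o1, o2, o3⟩ := H.on hp
  have s := (l_P f).2.2.2.2.2
  have e1 := H.dq hp 1 _ _ _ _ (H.dO hp 1) fun q hq => (H.on hq).1
  have e2 := H.dq hp 1 _ _ _ _ (hasDerivAt_const (0 : ℝ) (0 : ℝ)) fun q hq => (H.on hq).2.1
  have e3 := H.dq hp 1 _ _ _ _ (H.dO hp 1) fun q hq => (H.on hq).2.2
  have e : fr (Uh T h p) 1 = nv := rfl
  have e' : sg (Uh T h p) 1 = Uh T h p omb := rfl
  rw [n1, n2, e, e'] at e1
  rw [n1, n2, n3, n4, e] at e2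
  rw [n3, n4, e, e'] at e3
  simp only [qf] at *
  generalize Uh T h p = u at *
  refine ⟨?_, ?_, ?_⟩
  · linear_combination -e1 + (2 * u omb - 4 * u Y11) * o1 - 4 * u Y21 * o2
  · linear_combination -e2 - 2 * u Y12 * o1 + (2 * u omb - 2 * u Y11 - 2 * u Y22) * o2 -
      2 * u Y21 * o3 + 2 * u O ^ 2 * s
  · linear_combination -e3 + (2 * u omb - 4 * u Y22) * o3 - 4 * u Y12 * o2

theorem X_eq (hp : p ∈ D) :
    4 * Uh T h p O ^ 2 * Uh T h p X11 = qf (lie h (lv h) 0 0 p) (lie h (lv h) 0 1 p)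
      (lie h (lv h) 1 1 p) (Uh T h p P11) (Uh T h p P12) (Uh T h p P11) (Uh T h p P12) ∧
    4 * Uh T h p O ^ 2 * Uh T h p X12 = qf (lie h (lv h) 0 0 p) (lie h (lv h) 0 1 p)
      (lie h (lv h) 1 1 p) (Uh T h p P11) (Uh T h p P12) (Uh T h p P21) (Uh T h p P22) ∧
    4 * Uh T h p O ^ 2 * Uh T h p X22 = qf (lie h (lv h) 0 0 p) (lie h (lv h) 0 1 p)
      (lie h (lv h) 1 1 p) (Uh T h p P21) (Uh T h p P22) (Uh T h p P21) (Uh T h p P22) := by
  have f := (H.fu.2 p hp).2.2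
  obtain ⟨n1, n2, n3, n4, s, -⟩ := l_P f
  obtain ⟨o1, o2, o3⟩ := H.on hp
  have e1 := H.dq hp 0 _ _ _ _ (H.dO hp 0) fun q hq => (H.on hq).1
  have e2 := H.dq hp 0 _ _ _ _ (hasDerivAt_const (0 : ℝ) (0 : ℝ)) fun q hq => (H.on hq).2.1
  have e3 := H.dq hp 0 _ _ _ _ (H.dO hp 0) fun q hq => (H.on hq).2.2
  have e : fr (Uh T h p) 0 = lv h p := rfl
  have e' : sg (Uh T h p) 0 = Uh T h p om := rfl
  have g10 : gm h 1 0 p = gm h 0 1 p := H.met.symm p hp _ _
  have d2 : ∀ i, dfr (Uh T h) p 2 i = Uh T h p P11 * dv (ey 0) (fun q => Uh T h q i) p +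
      Uh T h p P12 * dv (ey 1) (fun q => Uh T h q i) p := fun i => by
    rw [dfr, fr_2, map_add, map_smul, map_smul]; rfl
  have d3 : ∀ i, dfr (Uh T h) p 3 i = Uh T h p P21 * dv (ey 0) (fun q => Uh T h q i) p +
      Uh T h p P22 * dv (ey 1) (fun q => Uh T h q i) p := fun i => by
    rw [dfr, fr_3, map_add, map_smul, map_smul]; rfl
  have y0 : (fun x => yc 0 (lv h x)) = fun q => Uh T h q b1 := rfl
  have y1 : (fun x => yc 1 (lv h x)) = fun q => Uh T h q b2 := rfl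
  rw [n1, n2, e, e', d2, d2] at e1
  rw [n1, n2, n3, n4, e, d2, d2, d3, d3] at e2
  rw [n3, n4, e, e', d3, d3] at e3
  simp only [qf, lie, Fin.sum_univ_two, y0, y1, g10, dv] at *
  generalize Uh T h p = u at *
  refine ⟨?_, ?_, ?_⟩
  · linear_combination -e1 + (2 * u om - 4 * u X11) * o1 + 2 * (u r0 - 2 * u X21) * o2
  · linear_combination -e2 + (-u r0 - 2 * u X12) * o1 + (2 * u om - 2 * u X11 - 2 * u X22) * o2 +
      (u r0 - 2 * u X21) * o3 + 2 * u O ^ 2 * s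
  · linear_combination -e3 + (2 * u om - 4 * u X22) * o3 + 2 * (-u r0 - 2 * u X12) * o2

theorem W_eq (hp : p ∈ D) (i : Ix) (hi : P354Q.isW i = true) :
    2 * Uh T h p O ^ 2 * Uh T h p i = wf (fun x y k j => ∑ a, Mf (Uh T h p) x a *
      ∑ b, Mf (Uh T h p) y b * ∑ c, Mf (Uh T h p) k c * ∑ d, Mf (Uh T h p) j d *
        rie h (fv (lv h) nv 1) a b c d p) i := by
  have e : ∀ x, fr (Uh T h p) x = ∑ a, Mf (Uh T h p) x a • fv (lv h) nv 1 p a := by
    refine P354Q.fin4 ?_ ?_ ?_ ?_ <;> simp only [Fin.sum_univ_four, Mf, fv, Matrix.cons_val,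
      Matrix.cons_val_zero, Matrix.cons_val_one, one_smul, zero_smul, add_zero, zero_add, inv_one]
    exacts [rfl, rfl, fr_2 _, fr_3 _]
  refine (wf_eq (Oq h p ^ 2) i hi).symm.trans (congrArg (fun R => wf R i) ?_)
  funext x y k j
  rw [← H.riem hp, e x, e y, e k, e j, (ml_Rm _ _).sum]
  rfl

end Dn

end Vale.Agent.P354YU
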