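import Vale.Agent.P354YU.HhA

/-!
Bounds for families of solutions of all structure equations.
-/

set_option linter.all false

open scoped ContDiff
open Set Filter Topology

noncomputable section

namespace Vale.Agent.P354YU

open Vale.Agent.P354n (R4)
open Vale.Agent.P354C Vale.Agent.P354C.Ix
open Vale.Agent.P354R (br2 dE_vals)
open Vale.Agent.P354XP
open Vale.Agent.P354XP.Fr

variable {P : Type} {F : P354XP.Fr P R4} {r ρ m ϑ s s' f g : Fn P R4} {k : ℕ}

theorem t_le (h : F.T k s f) (n : ℕ)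
    (e : ∀ᶠ a in F.l, ∀ p ∈ F.V a, 0 ≤ s a p → s a p ≤ F.G a ^ n * s' a p) : F.T k s' f :=
  h.mono ⟨n, by
    filter_upwards [e, h.b0.nn] with a e h p hp
    rw [abs_of_nonneg (h p hp)]
    exact e p hp (h p hp)⟩

theorem b0_rt (hs : F.B0 s s) (h : F.B0 (s * s) f) : F.B0 s (rt f) := by
  obtain ⟨n, hn⟩ := h
  refine ⟨n, ?_⟩
  filter_upwards [hn, hs.nn, F.ok] with r hn hs o x hx
  have g : 1 ≤ F.G r ^ n := one_le_pow₀ (by linarith [o.2.2.1])
  have k := (le_abs_self _).trans (hn x hx)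
  have k2 := mul_nonneg (hs x hx) (hs x hx)
  simp only [Fr.rt, Pi.mul_apply] at k ⊢
  rw [abs_of_nonneg (Real.sqrt_nonneg _)]
  refine Real.sqrt_le_iff.2 ⟨mul_nonneg (by linarith) (hs x hx), k.trans ?_⟩
  nlinarith [mul_nonneg (mul_nonneg (sub_nonneg.2 g) (zero_le_one.trans g)) k2]

theorem rt_inv (f : Fn P R4) : (rt f)⁻¹ = rt f⁻¹ := by
  funext a p
  exact (Real.sqrt_inv _).symm

theorem t_c (a : ℝ) (h : F.T k s f) : F.T k s (cst a * f) := (t_cst a).mul1 h

theorem t_qf {a b c x y z w : Fn P R4} (ha : F.T k s a) (hb : F.T k s b) (hc : F.T k s c)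
    (hx : F.T k s' x) (hy : F.T k s' y) (hz : F.T k s' z) (hw : F.T k s' w) :
    F.T k (s * (s' * s')) (qf a b c x y z w) :=
  ((ha.mul (hx.mul hz)).add (hb.mul ((hx.mul hw).add (hy.mul hz)))).add (hc.mul (hy.mul hw))

/-- The radius r, its inverse ρ, the rate m, and the cost ϑ of a derivative. -/
structure Sz (F : P354XP.Fr P R4) (r ρ m ϑ : Fn P R4) : Prop where
  e : F.e = ev
  c : ∀ i, F.c i = ϑ
  ok : ∀ᶠ a in F.l, ∀ p ∈ F.V a, r a p * ρ a p = 1 ∧ 0 < ρ a p ∧ ρ a p ≤ m a p ∧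
    m a p ≤ F.G a ∧ 1 ≤ ϑ a p

namespace Sz
variable (S : Sz F r ρ m ϑ)
include S

theorem can (h : F.T k (s * (r * ρ)) f) : F.T k s f :=
  t_le h 0 (S.ok.mono fun a o p hp _ => by simp [(o p hp).1])
theorem up1 (h : F.T k (s * ρ) f) : F.T k (s * m) f :=
  t_le h 0 (S.ok.mono fun a o p hp k => by
    simp only [Pi.mul_apply, pow_zero, one_mul] at k ⊢
    exact mul_le_mul_of_nonneg_left (o p hp).2.2.1 (nonneg_of_mul_nonneg_left k (o p hp).2.1))
theorem up2 (h : F.T k (s * m) f) : F.T k s f :=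
  t_le h 1 (S.ok.mono fun a o p hp k => by
    simp only [Pi.mul_apply, pow_one] at k ⊢
    rw [mul_comm]
    exact mul_le_mul_of_nonneg_right (o p hp).2.2.2.1
      (nonneg_of_mul_nonneg_left k ((o p hp).2.1.trans_le (o p hp).2.2.1)))
theorem up3 (h : F.T k s f) : F.T k (s * ϑ) f :=
  t_le h 0 (S.ok.mono fun a o p hp k => by
    simp only [Pi.mul_apply, pow_zero, one_mul]
    exact le_mul_of_one_le_right k (o p hp).2.2.2.2)
theorem d (h : F.T (k + 1) s f) (i : Fin 3) : F.T k (s * ϑ) (D ev i f) :=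
  S.e ▸ S.c i ▸ h.d i
theorem rρ : F.B0 1 (r * ρ) := B0.of_le (S.ok.mono fun a o p hp => by simp [(o p hp).1])
theorem bρ : F.B0 ρ ρ := B0.refl (S.ok.mono fun a o p hp => (o p hp).2.1.le)
theorem br : F.B0 r r := B0.refl (S.ok.mono fun a o p hp =>
  ((mul_pos_iff_of_pos_right (o p hp).2.1).1 ((o p hp).1 ▸ one_pos)).le)

end Sz

variable {U : P → R4 → Ix → ℝ}

/-- The components, their derivatives along the frame, the determinant, and the brackets. -/
def uf (U : P → R4 → Ix → ℝ) (i : Ix) : Fn P R4 := fun a p => U a p i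
def df (U : P → R4 → Ix → ℝ) (k : Fin 4) (i : Ix) : Fn P R4 := fun a p => dfr (U a) p k i
def dP (U : P → R4 → Ix → ℝ) : Fn P R4 := fun a p => detP (U a p)
def bF (U : P → R4 → Ix → ℝ) (x y k : Fin 4) : Fn P R4 :=
  fun a p => P354C.br (U a p) (dfr (U a) p) x y k
def dT (f : Fn P R4) : Fn P R4 := fun a => P354H.dt (f a)

theorem df_0 (i : Ix) : df U 0 i = df U 1 i + cst 2 * D ev 0 (uf U i) +
    uf U b1 * D ev 1 (uf U i) + uf U b2 * D ev 2 (uf U i) := by
  funext a p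
  simp only [df, dfr, fr_0, map_add, map_smul]
  rfl
theorem df_2 (i : Ix) : df U 2 i = uf U P11 * D ev 1 (uf U i) + uf U P12 * D ev 2 (uf U i) := by
  funext a p
  simp only [df, dfr, fr_2, map_add, map_smul]
  rfl
theorem df_3 (i : Ix) : df U 3 i = uf U P21 * D ev 1 (uf U i) + uf U P22 * D ev 2 (uf U i) := by
  funext a p
  simp only [df, dfr, fr_3, map_add, map_smul]
  rfl
theorem dT_eq (i : Ix) : dT (uf U i) = df U 1 i + D ev 0 (uf U i) := by
  funext a p
  have : ((1, 0) : R4) = nv + ev 0 := by ext <;> simp [nv, ev, P354H.e]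
  simp only [dT, P354H.dt, this, map_add]
  rfl

/-- The sizes. -/
def sz (m ϑ : Fn P R4) : Ix → Fn P R4
  | .O | .b1 | .b2 => 1
  | .P11 | .P12 | .P21 | .P22 => m
  | .om | .r0 => ϑ
  | _ => ϑ * m

/-- The equations hold. -/
def Sol (F : P354XP.Fr P R4) (U : P → R4 → Ix → ℝ) : Prop :=
  F.Ev fun a p => Full (U a p) (dfr (U a) p) ∧ U a p O ≠ 0 ∧ detP (U a p) ≠ 0

theorem bd_all (S : Sz F r ρ m ϑ) (H : Sol F U) (hO : F.T (k + 1) 1 (uf U O))
    (iO : F.T k 1 (uf U O)⁻¹) (h1 : F.T (k + 1) 1 (uf U b1)) (h2 : F.T (k + 1) 1 (uf U b2))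
    (p11 : F.T (k + 1) ρ (uf U P11)) (p12 : F.T (k + 1) ρ (uf U P12))
    (p21 : F.T (k + 1) ρ (uf U P21)) (p22 : F.T (k + 1) ρ (uf U P22))
    (iD : F.T k (r * r) (dP U)⁻¹) (nO : F.T k (ϑ * m) (df U 1 O))
    (n1 : F.T k (ϑ * m * ρ) (df U 1 b1)) (n2 : F.T k (ϑ * m * ρ) (df U 1 b2))
    (x11 : F.T k (ϑ * m) (uf U X11)) (x12 : F.T k (ϑ * m) (uf U X12))
    (x22 : F.T k (ϑ * m) (uf U X22)) (y11 : F.T k (ϑ * m) (uf U Y11))
    (y12 : F.T k (ϑ * m) (uf U Y12)) (y22 : F.T k (ϑ * m) (uf U Y22))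
    (hW : ∀ i, P354Q.isW i = true → F.T k (ϑ * m) (uf U i)) (i : Ix) :
    F.T k (sz m ϑ i) (uf U i) := by
  have e2 : ∀ {s i}, F.T (k + 1) s (uf U i) → F.T k (s * ϑ * ρ) (df U 2 i) := fun h =>
    (((p11.pred.mul (S.d h 1)).add (p12.pred.mul (S.d h 2))).wt (mul_comm _ _)).cast (df_2 _).symm
  have e3 : ∀ {s i}, F.T (k + 1) s (uf U i) → F.T k (s * ϑ * ρ) (df U 3 i) := fun h =>
    (((p21.pred.mul (S.d h 1)).add (p22.pred.mul (S.d h 2))).wt (mul_comm _ _)).cast (df_3 _).symm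
  have e0 : ∀ {s i}, F.T (k + 1) s (uf U i) → F.T k (s * ϑ) (df U 1 i) →
      F.T k (s * ϑ) (df U 0 i) := fun h n => (((n.add (t_c 2 (S.d h 0))).add
    (h1.pred.mul1 (S.d h 1))).add (h2.pred.mul1 (S.d h 2))).cast (df_0 _).symm
  have hb : ∀ {s x y u v}, (u = fun a p => dEof (dfr (U a) p) x y 2 - dEof (dfr (U a) p) y x 2) →
      (v = fun a p => dEof (dfr (U a) p) x y 3 - dEof (dfr (U a) p) y x 3) →
      F.T k (s * ρ) u → F.T k (s * ρ) v → F.T k s (bF U x y 2) ∧ F.T k s (bF U x y 3) := by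
    rintro s x y _ _ rfl rfl a b
    refine ⟨S.can (S.can (((((p22.pred.mul a).sub (p21.pred.mul b)).mul iD).wt (by ring)).cast ?_)),
      S.can (S.can (((((p11.pred.mul b).sub (p12.pred.mul a)).mul iD).wt (by ring)).cast ?_))⟩
    · funext a p
      exact ((br2 _ _ x y).1.trans (div_eq_mul_inv _ _)).symm
    · funext a p
      exact ((br2 _ _ x y).2.trans (div_eq_mul_inv _ _)).symm
  have lf : ∀ {s i g}, P354Q.isW i = false → (∀ a p, g a p = lift1 (U a p) (dfr (U a) p) i) →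
      F.T k s g → F.T k s (uf U i) := fun hi e h => h.congr (H.mono fun a H p hp =>
    (e a p).trans (P354Q.lift1_full (H p hp).2.2 (H p hp).2.1 (H p hp).1.tor (H p hp).1.dO _ hi))
  have o2 : F.T k (ϑ * m) (df U 2 O * (uf U O)⁻¹) := (S.up1 ((e2 hO).mulr iO)).wt (by ring)
  have o3 : F.T k (ϑ * m) (df U 3 O * (uf U O)⁻¹) := (S.up1 ((e3 hO).mulr iO)).wt (by ring)
  have b10 := hb (x := 1) (y := 0) (funext fun a => funext fun p => (sub_zero _).symm)
    (funext fun a => funext fun p => (sub_zero _).symm) n1 n2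
  have ang : ∀ {i j}, F.T (k + 1) ρ (uf U i) → F.T (k + 1) ρ (uf U j) →
      F.T k (ϑ * m * ρ) (df U 2 i - df U 3 j) := fun a b =>
    (S.up1 (s := ϑ * ρ) (((e2 a).sub (e3 b)).wt (by ring))).wt (by ring)
  have b23 := hb (x := 2) (y := 3) rfl rfl (ang p21 p11) (ang p22 p12)
  have hob : F.T k (ϑ * m) (uf U omb) :=
    lf rfl (fun a p => (div_eq_mul_inv _ _).symm) (nO.mulr iO)
  have y21 : F.T k (ϑ * m) (uf U Y21) :=
    y12.congr (H.mono fun a H p hp => (l_P (H p hp).1).2.2.2.2.2)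
  have nP : ∀ {i j l a b}, F.T (k + 1) ρ (uf U i) → F.T (k + 1) ρ (uf U j) →
      F.T (k + 1) ρ (uf U l) → F.T k (ϑ * m) (uf U a) → F.T k (ϑ * m) (uf U b) →
      (∀ (u : Ix → ℝ) d, Full u d → d 1 i = u omb * u i - 2 * (u a * u j + u b * u l)) →
      F.T k (ρ * ϑ) (df U 0 i) := fun hi hj hl ha hb e => e0 hi (S.up2 (((hob.mul hi.pred).sub
        (t_c 2 ((ha.mul hj.pred).add (hb.mul hl.pred)))).wt (by ring)) |>.congr
      (H.mono fun a H p hp => (e _ _ (H p hp).1).symm))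
  have lb : ∀ {i j x}, F.T k (ρ * ϑ) (df U 0 i) → F.T k (1 * ϑ * ρ) (df U x j) →
      F.T k (ϑ * ρ) (df U 0 i - df U x j) := fun a b => (a.wt (by ring)).sub (b.wt (by ring))
  have b02 := hb (x := 0) (y := 2) rfl rfl
    (lb (nP p11 p11 p21 y11 y21 fun _ _ f => (n_P f).1) (e2 h1))
    (lb (nP p12 p12 p22 y11 y21 fun _ _ f => (n_P f).2.1) (e2 h2))
  have b03 := hb (x := 0) (y := 3) rfl rfl
    (lb (nP p21 p11 p21 y12 y22 fun _ _ f => (n_P f).2.2.1) (e3 h1))
    (lb (nP p22 p12 p22 y12 y22 fun _ _ f => (n_P f).2.2.2) (e3 h2))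
  have pm : ∀ {i}, F.T (k + 1) ρ (uf U i) → F.T k m (uf U i) := fun h =>
    (S.up1 (h.pred.wt (one_mul _).symm)).wt (one_mul _)
  have cb : ∀ {i} (α β : ℝ) {u v}, F.T k (ϑ * m) u → F.T k (ϑ * m) v → P354Q.isW i = false →
      (∀ a p, α * u a p + β * v a p = lift1 (U a p) (dfr (U a) p) i) →
      F.T k (ϑ * m) (uf U i) := fun α β _ _ hu hv hi e => lf hi e ((t_c α hu).add (t_c β hv))
  have fin : ∀ {x y z α β : ℝ}, z = α * (x * y⁻¹) + β → α * (x * y⁻¹) + β = z := Eq.symm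
  cases i
  case O => exact hO.pred
  case b1 => exact h1.pred
  case b2 => exact h2.pred
  case P11 => exact pm p11
  case P12 => exact pm p12
  case P21 => exact pm p21
  case P22 => exact pm p22
  case om =>
    exact lf rfl (fun a p => (div_eq_mul_inv _ _).symm)
      (((e0 hO ((S.up2 nO).wt (one_mul _).symm)).mulr iO).wt (one_mul _))
  case omb => exact hob
  case r0 =>
    exact lf rfl (fun a p => by simp only [lift1, bF, cst, Pi.mul_apply, Pi.sub_apply]; ring)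
      (t_c (1 / 2) (b02.2.sub b03.1))
  case p1 => exact cb (1 / 2) (-1 / 8) o2 b10.1 rfl fun a p => fin (by simp only [lift1, bF, df, uf]; ring)
  case p2 => exact cb (1 / 2) (-1 / 8) o3 b10.2 rfl fun a p => fin (by simp only [lift1, bF, df, uf]; ring)
  case q1 => exact cb (1 / 2) (1 / 8) o2 b10.1 rfl fun a p => fin (by simp only [lift1, bF, df, uf]; ring)
  case q2 => exact cb (1 / 2) (1 / 8) o3 b10.2 rfl fun a p => fin (by simp only [lift1, bF, df, uf]; ring)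
  case r1 => exact cb (-1) (-1) o3 b23.1 rfl fun a p => fin (by simp only [lift1, bF, df, uf]; ring)
  case r2 => exact cb 1 (-1) o2 b23.2 rfl fun a p => fin (by simp only [lift1, bF, df, uf]; ring)
  case A1 => exact cb 1 (1 / 4) o2 b10.1 rfl fun a p => fin (by simp only [lift1, bF, df, uf]; ring)
  case A2 => exact cb 1 (1 / 4) o3 b10.2 rfl fun a p => fin (by simp only [lift1, bF, df, uf]; ring)
  case B1 => exact cb 1 (-1 / 4) o2 b10.1 rfl fun a p => fin (by simp only [lift1, bF, df, uf]; ring)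
  case B2 => exact cb 1 (-1 / 4) o3 b10.2 rfl fun a p => fin (by simp only [lift1, bF, df, uf]; ring)
  case X11 => exact x11
  case X12 => exact x12
  case X21 => exact x12.congr (H.mono fun a H p hp => (l_P (H p hp).1).2.2.2.2.1)
  case X22 => exact x22
  case Y11 => exact y11
  case Y12 => exact y12
  case Y21 => exact y21
  case Y22 => exact y22
  all_goals exact hW _ rfl

theorem t_list {ι : Type} (hs : F.B0 s s) (φ : ι → Fn P R4) (h : ∀ t, F.T k s (φ t)) (L : List ι) :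
    F.T k s fun a p => (L.map fun t => φ t a p).sum := by
  induction L with
  | nil => exact t_zero hs
  | cons t L ih => exact (h t).add ih

/-- The derivative in the time. -/
theorem bd_dt (S : Sz F r ρ m ϑ) (H : Sol F U) (h : ∀ i, F.T (k + 1) ϑ (uf U i)) (i : Ix) :
    F.T k (ϑ * ϑ * ϑ) (dT (uf U i)) := by
  have d : ∀ i j, F.T k (ϑ * ϑ * ϑ) (D ev j (uf U i)) := fun i j => S.up3 (S.d (h i) j)
  have md : ∀ l i j, F.T k (ϑ * ϑ * ϑ) (uf U l * D ev j (uf U i)) := fun l i j =>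
    ((h l).pred.mul (S.d (h i) j)).wt (by ring)
  have hs := (d O 0).b0.self
  have ea : ∀ (a : Fin 2) j, F.T k (ϑ * ϑ * ϑ) (df U (ai a) j) := fun a j => by
    fin_cases a
    exacts [((md _ _ _).add (md _ _ _)).cast (df_2 j).symm,
      ((md _ _ _).add (md _ _ _)).cast (df_3 j).symm]
  have A := t_list hs (fun t : ℤ × Fin 2 × Ix => cst t.1 * df U (ai t.2.1) t.2.2)
    fun t => t_c _ (ea _ _)
  have B := t_list hs (fun t : ℤ × Ix => cst t.1 * uf U t.2)
    fun t => t_c _ (S.up3 (S.up3 (h _).pred))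
  have C := t_list hs (fun t : ℤ × Ix × Ix => cst t.1 * (uf U t.2.1 * uf U t.2.2))
    fun t => t_c _ (S.up3 ((h _).pred.mul (h _).pred))
  have c0 : ((cN i : ℝ) + cL i) ≠ 0 := by
    have : cN i + cL i ≠ 0 := by cases i <;> decide
    exact_mod_cast this
  refine (((t_c (-((cN i : ℝ) + cL i)⁻¹) ((((((((t_c (cL i) (((t_c 2 (d i 0)).add
    (md b1 i 1)).add (md b2 i 2))).add (A (angN i))).add (B (linN i))).add (C (quadN i))).add
      (A (angL i))).add (B (linL i))).add (C (quadL i))))).congr ?_).add (d i 0)).cast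
        (dT_eq i).symm
  refine H.mono fun a H p hp => ?_
  have e1 := (H p hp).1.eqN i
  have e2 := (H p hp).1.eqL i
  have e3 := congrFun (congrFun (df_0 (U := U) i) a) p
  simp only [resN, resL, angS, linS, quadS] at e1 e2
  simp only [Pi.add_apply, Pi.mul_apply, cst, df, uf] at e3 ⊢
  rw [e3] at e2
  rw [neg_mul, neg_eq_iff_eq_neg, inv_mul_eq_iff_eq_mul₀ c0]
  linarith

end Vale.Agent.P354YU
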