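import Vale.Agent.P354XP.Os
import Vale.Agent.P354XG.Int
import Vale.Agent.P354A.Defs

/-!
More calculus for families: inverses and roots with sizes, and integrals along the lines of n.
-/

set_option linter.all false

open scoped ContDiff
open Set Filter Topology MeasureTheory

noncomputable section

namespace Vale.Agent.P354YU

open Vale.Agent.P354n (R4)
open Vale.Agent.P354H (e)
open Vale.Agent.P354XP
open Vale.Agent.P354XP.Fr
open Vale.Agent.P354XG (SmI d2 smI_nat)

section gen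
variable {P E : Type} [NormedAddCommGroup E] [NormedSpace ℝ E] {F : Fr P E} {s t f : Fn P E}

theorem t_inv (hst : F.B0 1 (s * t)) (h0 : F.Ev fun r x => f r x ≠ 0) (h1 : F.B0 t f⁻¹) :
    ∀ {k : ℕ}, F.T k s f → F.T k t f⁻¹
  | 0, h => ⟨by filter_upwards [h.sm, h0] with r h h0 using h.inv h0, h1⟩
  | k + 1, h => by
    have ih := t_inv hst h0 h1 h.pred
    refine T.succ (ih.low k.zero_le) fun i => ((((h.d i).mul (ih.mul ih)).neg).congr ?_).mono ?_
    · filter_upwards [h.sm.da, h0] with r h h0 x hx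
      have e := ((hasDerivAt_inv (h0 x hx)).comp_hasFDerivAt x (h x hx).hasFDerivAt).fderiv
      have e' : (f⁻¹ : Fn P E) r = (fun y => y⁻¹) ∘ f r := rfl
      simp only [D, e', e, Pi.neg_apply, Pi.mul_apply, Pi.inv_apply,
        ContinuousLinearMap.smul_apply, smul_eq_mul, Function.comp]
      rw [sq, mul_inv]; ring
    · have k := hst.mul (h1.self.mul (b0_c i))
      rw [one_mul] at k
      exact k.congr (Eq.of_eq fun r x => by simp only [Pi.mul_apply]; ring)

theorem t_rt (hst : F.B0 1 (s * t)) (hs : F.B0 s s) (h0 : F.Ev fun r x => 0 < f r x)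
    (h1 : F.B0 (t * t) f⁻¹) : ∀ {k : ℕ}, F.T k (s * s) f → F.T k s (rt f)
  | 0, h => by
    refine ⟨by filter_upwards [h.sm, h0] with r h h0 using h.sqrt fun x hx => (h0 x hx).ne', ?_⟩
    obtain ⟨n, hn⟩ := h.b
    refine ⟨n, ?_⟩
    filter_upwards [hn, hs.nn, F.ok] with r hn hs o x hx
    have g : 1 ≤ F.G r ^ n := one_le_pow₀ (by linarith [o.2.2.1])
    have k := (le_abs_self _).trans (hn x hx)
    have k2 := mul_nonneg (hs x hx) (hs x hx)
    simp only [Fr.rt, Pi.mul_apply] at k ⊢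
    rw [abs_of_nonneg (Real.sqrt_nonneg _)]
    refine Real.sqrt_le_iff.2 ⟨mul_nonneg (by linarith) (hs x hx), k.trans ?_⟩
    nlinarith [mul_nonneg (mul_nonneg (sub_nonneg.2 g) (zero_le_one.trans g)) k2]
  | k + 1, h => by
    have h2 : F.B0 1 (s * s * (t * t)) := by
      have k := hst.mul hst
      rw [one_mul] at k
      exact k.congr (Eq.of_eq fun r x => by simp only [Pi.mul_apply]; ring)
    have ih := t_rt hst hs h0 h1 h.pred
    have hi := t_inv h2 (Eventually.mono h0 fun _ h x hx => (h x hx).ne') h1 h.pred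
    refine T.succ (ih.low k.zero_le) fun i =>
      (((h.d i).mul ((t_cst (1 / 2)).mul1 (ih.mul hi))).congr ?_).mono ?_
    · filter_upwards [h.sm.da, h0] with r h h0 x hx
      have p := h0 x hx
      have e := ((h x hx).hasFDerivAt.sqrt p.ne').fderiv
      have e' : Fr.rt f r = fun y => √(f r y) := rfl
      have q := Real.sqrt_pos.2 p
      have q2 := Real.mul_self_sqrt p.le
      simp only [D, e', e, Pi.mul_apply, Pi.inv_apply, cst, ContinuousLinearMap.smul_apply,
        smul_eq_mul]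
      generalize √(f r x) = t at q q2
      rw [← q2]; field_simp
    · have k := h2.mul (hs.mul (b0_c i))
      rw [one_mul] at k
      exact k.congr (Eq.of_eq fun r x => by simp only [Pi.mul_apply]; ring)

end gen

/-- The vector n, the space directions, and the line of n through p as a function of the time. -/
def nv : R4 := (1, -1, 0, 0)
def ev (j : Fin 3) : R4 := (0, e j)
def lp (p : R4) (s : ℝ) : R4 := p + (s - p.1) • nv

theorem lp_fst (p : R4) (s : ℝ) : (lp p s).1 = s := by simp [lp, nv]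
theorem lp_self (p : R4) : lp p p.1 = p := by simp [lp]
theorem lp_nv (p : R4) (t s : ℝ) : lp (p + t • nv) s = lp p s := by
  have : (p + t • nv).1 = p.1 + t := by simp [nv]
  rw [lp, lp, this, add_assoc, ← add_smul, show t + (s - (p.1 + t)) = s - p.1 by ring]
theorem lp_ev (p : R4) (t s : ℝ) (j : Fin 3) : lp (p + t • ev j) s = lp p s + t • ev j := by
  have : (p + t • ev j).1 = p.1 := by simp [ev]
  rw [lp, lp, this, add_right_comm]

variable {P : Type} {F : Fr P R4} {T : P → ℝ} {σ : P → ℝ → ℝ} {f w w' : Fn P R4}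

/-- The derivative along n, functions of the time, and the integral along n from the time T. -/
def dN (f : Fn P R4) : Fn P R4 := fun r x => fderiv ℝ (f r) x nv
def tm (σ : P → ℝ → ℝ) : Fn P R4 := fun r p => σ r p.1
def Itg (T : P → ℝ) (f : Fn P R4) : Fn P R4 := fun r p => ∫ s in T r..p.1, f r (lp p s)

/-- The weight w does not grow towards the time T. -/
def Mo (F : Fr P R4) (T : P → ℝ) (w : Fn P R4) : Prop :=
  ∃ a : ℕ, ∀ᶠ r in F.l, ∀ p ∈ F.V r, 0 ≤ w r p ∧
    ∀ s ∈ uIcc (T r) p.1, w r (lp p s) ≤ F.G r ^ a * w r p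

/-- The sets contain the segments to the time T. -/
structure Ln (F : Fr P R4) (T : P → ℝ) : Prop where
  e : F.e = ev
  U : ∀ᶠ r in F.l, ∀ p ∈ F.U r, ∀ s ∈ uIcc (T r) p.1, lp p s ∈ F.U r
  V : ∀ᶠ r in F.l, ∀ p ∈ F.V r, ∀ s ∈ uIcc (T r) p.1, lp p s ∈ F.V r
  c : ∀ i, Mo F T (F.c i)

/-- The rate σ is integrable. -/
def Ig (F : Fr P R4) (T : P → ℝ) (σ : P → ℝ → ℝ) : Prop :=
  ∃ a : ℕ, ∀ᶠ r in F.l, ∀ p ∈ F.V r, IntervalIntegrable (σ r) volume (T r) p.1 ∧
    |∫ s in T r..p.1, σ r s| ≤ F.G r ^ a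

theorem mo_one : Mo F T 1 := ⟨0, .of_forall fun _ _ _ => by simp⟩

theorem Mo.mul (L : Ln F T) (h : Mo F T w) (h' : Mo F T w') : Mo F T (w * w') := by
  obtain ⟨a, h⟩ := h
  obtain ⟨b, h'⟩ := h'
  refine ⟨a + b, ?_⟩
  filter_upwards [h, h', L.V] with r h h' hV p hp
  refine ⟨mul_nonneg (h p hp).1 (h' p hp).1, fun s hs => ?_⟩
  have k := (h p hp).2 s hs
  exact (mul_le_mul k ((h' p hp).2 s hs) (h' _ (hV p hp s hs)).1
    ((h _ (hV p hp s hs)).1.trans k)).trans_eq (by simp only [Pi.mul_apply]; ring)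

section pt
variable {U : Set R4} {g : R4 → ℝ} {t : ℝ} {p : R4}

theorem int_eq (g : R4 → ℝ) (t : ℝ) (p : R4) : ∫ s in t..p.1, g (lp p s) =
    ∫ s in (0 : ℝ)..1, (p.1 - t) * g (lp p ((p.1 - t) * s + t)) := by
  rw [intervalIntegral.integral_const_mul,
    intervalIntegral.mul_integral_comp_mul_add (f := fun s => g (lp p s))]
  simp

theorem seg_mem {s : ℝ} (hs : s ∈ Icc (0 : ℝ) 1) (t b : ℝ) : (b - t) * s + t ∈ uIcc t b := by
  rw [← segment_eq_uIcc]
  exact ⟨1 - s, s, by linarith [hs.2], hs.1, by ring, by simp only [smul_eq_mul]; ring⟩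

theorem smi (hU : IsOpen U) (hg : ContDiffOn ℝ ∞ g U)
    (h : ∀ p ∈ U, ∀ s ∈ uIcc t p.1, lp p s ∈ U) :
    SmI U fun z : ℝ × R4 => (z.2.1 - t) * g (lp z.2 ((z.2.1 - t) * z.1 + t)) := fun s hs y hy => by
  refine ContDiffAt.mul (by fun_prop) (ContDiffAt.comp (g := g) _
    (hg.contDiffAt (hU.mem_nhds (h y hy _ (seg_mem hs _ _)))) ?_)
  unfold lp
  fun_prop

theorem int_sm (hU : IsOpen U) (hg : ContDiffOn ℝ ∞ g U)
    (h : ∀ p ∈ U, ∀ s ∈ uIcc t p.1, lp p s ∈ U) :
    ContDiffOn ℝ ∞ (fun p : R4 => ∫ s in t..p.1, g (lp p s)) U := by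
  simp only [int_eq]
  exact contDiffOn_infty.2 fun k => smI_nat hU k ℝ _ (smi hU hg h)

theorem line_der {g : R4 → ℝ} {p : R4} (h : DifferentiableAt ℝ g p) (v : R4) :
    HasDerivAt (fun t : ℝ => g (p + t • v)) (fderiv ℝ g p v) 0 := by
  have h1 : HasDerivAt (fun t : ℝ => p + t • v) ((1 : ℝ) • v) 0 :=
    ((hasDerivAt_id (0 : ℝ)).smul_const v).const_add p
  rw [one_smul] at h1
  exact HasFDerivAt.comp_hasDerivAt_of_eq 0 h.hasFDerivAt h1 (by simp)

theorem int_ev (hU : IsOpen U) (hg : ContDiffOn ℝ ∞ g U)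
    (h : ∀ p ∈ U, ∀ s ∈ uIcc t p.1, lp p s ∈ U) (hp : p ∈ U) (j : Fin 3) :
    fderiv ℝ (fun p : R4 => ∫ s in t..p.1, g (lp p s)) p (ev j) =
      ∫ s in t..p.1, fderiv ℝ g (lp p s) (ev j) := by
  have S := smi hU hg h
  simp only [int_eq g]
  rw [int_eq (fun q => fderiv ℝ g q (ev j)), (S.hasFDerivAt hU hp).fderiv,
    ContinuousLinearMap.intervalIntegral_apply (S.d2.intg hp)]
  refine intervalIntegral.integral_congr fun s hs => ?_
  rw [uIcc_of_le zero_le_one] at hs
  have h1 := ((S s hs p hp).differentiableAt (by simp)).hasFDerivAt.comp p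
    (hasFDerivAt_prodMk_right s p)
  have h2 := line_der h1.differentiableAt (ev j)
  rw [h1.fderiv] at h2
  have h3 := (line_der ((hg.contDiffAt (hU.mem_nhds (h p hp _ (seg_mem hs _ _)))).differentiableAt
    (by simp)) (ev j)).const_mul (p.1 - t)
  refine h2.unique (h3.congr_of_eventuallyEq (.of_forall fun x => ?_))
  have : (p + x • ev j).1 = p.1 := by simp [ev]
  simp only [Function.comp, this, lp_ev]

theorem int_nv (hU : IsOpen U) (hg : ContDiffOn ℝ ∞ g U)
    (h : ∀ p ∈ U, ∀ s ∈ uIcc t p.1, lp p s ∈ U) (hp : p ∈ U) :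
    fderiv ℝ (fun p : R4 => ∫ s in t..p.1, g (lp p s)) p nv = g p := by
  have h1 := line_der (((int_sm hU hg h).contDiffAt (hU.mem_nhds hp)).differentiableAt (by simp)) nv
  have lc : Continuous (lp p) := by unfold lp; fun_prop
  have hc : ContinuousOn (fun s => g (lp p s)) (lp p ⁻¹' U) :=
    hg.continuousOn.comp lc.continuousOn fun _ k => k
  have ho := hU.preimage lc
  have hm : p.1 ∈ lp p ⁻¹' U := h p hp _ right_mem_uIcc
  have h2 := intervalIntegral.integral_hasDerivAt_right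
    (hc.mono (h p hp)).intervalIntegrable (hc.stronglyMeasurableAtFilter ho _ hm)
    (hc.continuousAt (ho.mem_nhds hm))
  rw [lp_self] at h2
  have h3 := HasDerivAt.comp_const_add p.1 0 ((add_zero p.1).symm ▸ h2)
  refine h1.unique (h3.congr_of_eventuallyEq (.of_forall fun x => ?_))
  have : (p + x • nv).1 = p.1 + x := by simp [nv]
  simp only [this, lp_nv]

end pt

theorem Ln.sm (L : Ln F T) (h : F.Sm f) : F.Sm (Itg T f) := by
  filter_upwards [h, L.U, F.ok] with r h hU o using int_sm o.1 h hU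

theorem Ln.d (L : Ln F T) (h : F.Sm f) (i : Fin 3) :
    F.Eq (Itg T (D F.e i f)) (D F.e i (Itg T f)) := by
  rw [L.e]
  filter_upwards [h, L.U, F.ok] with r h hU o p hp using (int_ev o.1 h hU hp i).symm

theorem Ln.dN (L : Ln F T) (h : F.Sm f) : F.Eq (dN (Itg T f)) f := by
  filter_upwards [h, L.U, F.ok] with r h hU o p hp using int_nv o.1 h hU hp

theorem Itg_top (r : P) {p : R4} (h : p.1 = T r) : Itg T f r p = 0 := by simp [Itg, h]

theorem Ln.b0 (L : Ln F T) (I : Ig F T σ) (hw : Mo F T w) (h : F.B0 (tm σ * w) f)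
    (h0 : F.B0 (tm σ) (tm σ)) : F.B0 w (Itg T f) := by
  obtain ⟨a, I⟩ := I
  obtain ⟨b, hw⟩ := hw
  obtain ⟨n, h⟩ := h
  refine ⟨n + b + a, ?_⟩
  filter_upwards [I, hw, h, h0.nn, L.V, F.ok] with r I hw h h0 hV o p hp
  have g : 0 < F.G r := by linarith [o.2.2.1]
  have c0 : 0 ≤ F.G r ^ n * (F.G r ^ b * w r p) := by have := (hw p hp).1; positivity
  have k := intervalIntegral.norm_integral_le_abs_of_norm_le (f := fun s => f r (lp p s))
    (g := fun s => F.G r ^ n * (F.G r ^ b * w r p) * σ r s) (μ := volume) (a := T r) (b := p.1)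
    (ae_restrict_of_forall_mem measurableSet_uIoc fun s hs => by
      have hs' := uIoc_subset_uIcc hs
      have k1 := h _ (hV p hp s hs')
      have k2 := h0 _ (hV p hp s hs')
      simp only [Pi.mul_apply, tm, lp_fst] at k1 k2
      refine k1.trans ?_
      rw [mul_assoc, mul_comm _ (σ r s)]
      exact mul_le_mul_of_nonneg_left (mul_le_mul_of_nonneg_left ((hw p hp).2 s hs') k2)
        (by positivity)) ((I p hp).1.const_mul _)
  rw [intervalIntegral.integral_const_mul, abs_mul, abs_of_nonneg c0] at k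
  exact (k.trans (mul_le_mul_of_nonneg_left (I p hp).2 c0)).trans_eq (by ring)

/-- The integral along n of a function with an integrable rate. -/
theorem Ln.t (L : Ln F T) (I : Ig F T σ) (h0 : F.B0 (tm σ) (tm σ)) :
    ∀ {k : ℕ} {w f : Fn P R4}, Mo F T w → F.T k (tm σ * w) f → F.T k w (Itg T f)
  | 0, _, _, hw, h => ⟨L.sm h.sm, L.b0 I hw h.b h0⟩
  | _ + 1, _, _, hw, h => Fr.T.succ ⟨L.sm h.sm, L.b0 I hw h.b0 h0⟩ fun i =>
      (L.t I h0 (hw.mul L (L.c i)) ((h.d i).wt (mul_assoc _ _ _))).congr (L.d h.sm i)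

end Vale.Agent.P354YU
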