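import Vale.Agent.P354YU.HhB

/-!
Bounds for the unknowns of a family of double null metrics.
-/

set_option linter.all false

open scoped ContDiff
open Set Filter Topology

noncomputable section

namespace Vale.Agent.P354YU

open Vale.Agent.P354n (R4)
open Vale.Agent.P354C Vale.Agent.P354C.Ix
open Vale.Agent.P354XE (Tw)
open Vale.Agent.P354XP
open Vale.Agent.P354XP.Fr
open Vale.Agent.P354SA (dv gm dg bb lv O2 lie fv rie)

variable {P : Type}

/-- The length of the vectors l, n, d1, d2. -/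
def zr {A : Type} [One A] (r : A) : Fin 4 → A := ![1, 1, r, r]

/-- The bounds for the metric. -/
structure Inp (F : P354XP.Fr P R4) (T : P → ℝ) (h : P → Tw) (r ρ ϑ : Fn P R4) (σ : P → ℝ → ℝ)
    (k : ℕ) : Prop where
  S : Sz F r ρ (tm σ) ϑ
  L : Ln F T
  I : Ig F T σ
  dn : ∀ᶠ a in F.l, Dn (T a) (h a) (F.U a)
  o : F.T k 1 fun a => O2 (h a)
  io : F.B0 1 (fun a => O2 (h a))⁻¹
  b : ∀ i, F.T k 1 fun a => bb (h a) i
  g : ∀ i j, F.T k (r * r) fun a => gm (h a) i j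
  id : F.B0 (ρ * ρ * (ρ * ρ)) (fun a => dg (h a))⁻¹
  no : F.T k (ϑ * tm σ) fun a => dv nv (O2 (h a))
  nb : ∀ i, F.T k (ϑ * tm σ * ρ) fun a => dv nv (bb (h a) i)
  ng : ∀ i j, F.T k (r * r * tm σ) fun a => dv nv (gm (h a) i j)
  chi : ∀ i j, F.T k (r * r * (ϑ * tm σ)) fun a => lie (h a) (lv (h a)) i j
  cur : ∀ i j l o, F.T k (ϑ * tm σ * zr r i * zr r j * zr r l * zr r o)
    fun a => rie (h a) (fv (lv (h a)) nv 1) i j l o

variable {F : P354XP.Fr P R4} {T : P → ℝ} {h : P → Tw} {r ρ ϑ s : Fn P R4} {σ : P → ℝ → ℝ} {k : ℕ}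

theorem t_wf {R : Fin 4 → Fin 4 → Fin 4 → Fin 4 → Fn P R4} (hR : ∀ x y l j, F.T k s (R x y l j))
    (i : Ix) (hi : P354Q.isW i = true) :
    F.T k s fun a p => wf (fun x y l j => R x y l j a p) i := by
  cases i <;> first
    | exact absurd hi (by decide)
    | exact hR _ _ _ _
    | exact (hR _ _ _ _).neg
    | exact (hR _ _ _ _).mulr (t_cst (-1))

namespace Inp
variable (H : Inp F T h r ρ ϑ σ k)
include H

theorem ev {q : P → R4 → Prop} (e : ∀ a p, Dn (T a) (h a) (F.U a) → p ∈ F.U a → q a p) : F.Ev q :=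
  H.dn.mono fun a d p hp => e a p d hp

theorem r2 : F.B0 1 (r * r * (ρ * ρ)) := by
  have k := H.S.rρ.mul H.S.rρ
  rw [one_mul] at k
  exact k.congr (Eq.of_eq fun a x => by simp only [Pi.mul_apply]; ring)

theorem ts : F.T k (r * r) fun a => sq (h a) :=
  t_rt H.r2 (H.S.br.mul H.S.br) (H.ev fun a p d hp => (d.pos p hp).2.1) H.id
    ((((H.g 0 0).mul (H.g 1 1)).sub ((H.g 0 1).mul (H.g 0 1))).cast (by
      funext a p
      simp only [dg, Pi.sub_apply, Pi.mul_apply, pow_two]))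

theorem is : F.T k (ρ * ρ) (fun a => sq (h a))⁻¹ :=
  t_inv H.r2 (H.ev fun a p d hp => (d.s_pos hp).ne')
    ((b0_rt (H.S.bρ.mul H.S.bρ) H.id).congr (Eq.of_eq fun a p => Real.sqrt_inv _)) H.ts

theorem it : F.T k ρ (fun a => tq (h a))⁻¹ := by
  have k1 : F.B0 (ρ * ρ) (fun a p => gm (h a) 0 0 p + gm (h a) 1 1 p + 2 * sq (h a) p)⁻¹ := by
    obtain ⟨n, hn⟩ := H.is.b0
    refine ⟨n, ?_⟩
    filter_upwards [hn, H.dn, F.ok] with a hn d o p hp
    have hp' := o.2.1 hp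
    refine le_trans ?_ (hn p hp)
    simp only [Pi.inv_apply]
    rw [abs_of_pos (inv_pos.2 (d.t2_pos hp')), abs_of_pos (inv_pos.2 (d.s_pos hp'))]
    exact inv_anti₀ (d.s_pos hp') (by linarith [d.s_pos hp', d.c_pos hp', (d.pos p hp').2.2])
  exact t_inv H.S.rρ (H.ev fun a p d hp => (d.t_pos hp).ne')
    ((b0_rt H.S.bρ k1).congr (Eq.of_eq fun a p => Real.sqrt_inv _))
    (t_rt H.S.rρ H.S.br (H.ev fun a p d hp => d.t2_pos hp) k1
      (((H.g 0 0).add (H.g 1 1)).add (t_c 2 H.ts)))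

theorem tO : F.T k 1 fun a => Oq (h a) := Fr.T.rt (H.ev fun a p d hp => (d.pos p hp).1) H.io H.o

theorem iO : F.T k 1 (fun a => Oq (h a))⁻¹ :=
  Fr.T.inv (H.ev fun a p d hp => (d.o_pos hp).ne')
    ((b0_rt b0_one ((one_mul (1 : Fn P R4)).symm ▸ H.io)).congr
      (Eq.of_eq fun a p => Real.sqrt_inv _)) H.tO

theorem i2 : F.T k 1 (fun a => O2 (h a))⁻¹ :=
  Fr.T.inv (H.ev fun a p d hp => (d.pos p hp).1.ne') H.io H.o

theorem ta : F.T k 1 fun a => aq (T a) (h a) := by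
  have w : F.T k (tm σ * 1) fun a => wq (h a) :=
    H.S.can (H.S.can (H.S.can (H.S.can ((((((H.g 0 0).sub (H.g 1 1)).mul (H.ng 0 1)).add
      ((H.g 0 1).mul ((H.ng 1 1).sub (H.ng 0 0)))).neg.mul
        (t_c (1 / 2) (H.is.mul (H.it.mul H.it)))).wt (by ring)))))
  exact H.L.t H.I (B0.refl (H.S.ok.mono fun a o p hp => ((o p hp).2.1.trans_le (o p hp).2.2.1).le))
    mo_one w

end Inp

theorem Inp.all (H : Inp F T h r ρ ϑ σ (k + 1)) :
    (∀ i, F.T k (sz (tm σ) ϑ i) (uf (fun a => Uh (T a) (h a)) i)) ∧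
      F.B0 (r * r) (dP fun a => Uh (T a) (h a))⁻¹ ∧ F.B0 1 (uf (fun a => Uh (T a) (h a)) O)⁻¹ := by
  have S := H.S
  obtain ⟨c, s⟩ := t_trig H.ta.sm (fun i => (H.ta.d i).wt (one_mul _)) le_rfl
  have q : F.T (k + 1) (ρ * ρ * ρ) fun a => kq (h a) := H.tO.mul1 (H.is.mul H.it)
  have u := (H.g 1 1).add H.ts
  have w := (H.g 0 0).add H.ts
  have v := H.g 0 1
  have pp : ∀ {f}, F.T (k + 1) (r * r) f → F.T (k + 1) ρ ((fun a => kq (h a)) * f) := fun hf =>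
    S.can (S.can ((q.mul hf).wt (by ring)))
  have p11 : F.T (k + 1) ρ (uf (fun a => Uh (T a) (h a)) P11) := pp ((c.mul1 u).sub (s.mul1 v))
  have p12 : F.T (k + 1) ρ (uf (fun a => Uh (T a) (h a)) P12) := pp ((s.mul1 w).sub (c.mul1 v))
  have p21 : F.T (k + 1) ρ (uf (fun a => Uh (T a) (h a)) P21) := pp ((c.mul1 v).neg.sub (s.mul1 u))
  have p22 : F.T (k + 1) ρ (uf (fun a => Uh (T a) (h a)) P22) := pp ((c.mul1 w).add (s.mul1 v))
  have iD : F.T (k + 1) (r * r) (dP fun a => Uh (T a) (h a))⁻¹ :=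
    (H.ts.mulr H.i2).congr (H.ev fun a p d hp => by
      change _ = (detP (Vh (T a) (h a) p))⁻¹
      rw [(d.root hp).1, d.o_sq hp, inv_div, div_eq_mul_inv]
      rfl)
  have sol : ∀ {s i g} (α : ℝ), α ≠ 0 → F.T (k + 1) s g → (∀ a p, Dn (T a) (h a) (F.U a) →
      p ∈ F.U a → α * Uh (T a) (h a) p O ^ 2 * Uh (T a) (h a) p i = g a p) →
      F.T k s (uf (fun a => Uh (T a) (h a)) i) := fun α hα hg e =>
    (t_c α⁻¹ (H.i2.mul1 hg)).pred.congr (H.ev fun a p d hp => by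
      have e1 : Uh (T a) (h a) p O ^ 2 = O2 (h a) p := d.o_sq hp
      have e2 := (d.pos p hp).1.ne'
      simp only [Pi.mul_apply, Pi.inv_apply, cst, uf, ← e a p d hp, e1]
      field_simp)
  have xq : ∀ {s x y z w} {f : Fin 2 → Fin 2 → Fn P R4}, (∀ i j, F.T (k + 1) (r * r * s) (f i j)) →
      F.T (k + 1) ρ x → F.T (k + 1) ρ y → F.T (k + 1) ρ z → F.T (k + 1) ρ w →
      F.T (k + 1) s (qf (f 0 0) (f 0 1) (f 1 1) x y z w) := fun hf a b c d =>
    S.can (S.can ((t_qf (hf 0 0) (hf 0 1) (hf 1 1) a b c d).wt (by ring)))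
  have ng : ∀ i j, F.T (k + 1) (r * r * (ϑ * tm σ)) fun a => dv nv (gm (h a) i j) := fun i j =>
    (S.up3 (H.ng i j)).wt (by ring)
  have M : ∀ x a, F.T (k + 1) (zr ρ a) (Mf (uf fun a => Uh (T a) (h a)) x a) := by
    have z1 : F.T (k + 1) 1 0 := t_zero b0_one
    have z2 : F.T (k + 1) ρ 0 := t_zero S.bρ
    refine P354Q.fin4 ?_ ?_ ?_ ?_ <;> refine P354Q.fin4 ?_ ?_ ?_ ?_
    exacts [t_one, z1, z2, z2, z1, t_one, z2, z2, z1, z1, p11, p12, z1, z1, p21, p22]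
  have ct : ∀ {s} {f : Fin 4 → Fn P R4} x, (∀ a, F.T (k + 1) (s * zr r a) (f a)) →
      F.T (k + 1) s fun a p => ∑ i, Mf (Uh (T a) (h a) p) x i * f i a p := fun {s f} x hf => by
    refine (Fr.T.fsum (f := fun i => Mf (uf fun a => Uh (T a) (h a)) x i * f i) ?_).cast ?_
    · refine P354Q.fin4 ?_ ?_ ?_ ?_
      exacts [((M x 0).mul (hf 0)).wt (by simp [zr]), ((M x 1).mul (hf 1)).wt (by simp [zr]),
        S.can (((M x 2).mul (hf 2)).wt (by simp only [zr, Matrix.cons_val]; ring)),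
        S.can (((M x 3).mul (hf 3)).wt (by simp only [zr, Matrix.cons_val]; ring))]
    · funext a p
      refine Finset.sum_congr rfl fun i _ => congrArg (· * f i a p) ?_
      revert x i
      refine P354Q.fin4 ?_ ?_ ?_ ?_ <;> refine P354Q.fin4 ?_ ?_ ?_ ?_ <;> exact fun _ => rfl
  refine ⟨bd_all S (H.ev fun a p d hp => ⟨(d.fu.2 p hp).2.2, (d.fu.2 p hp).1.ne', (d.fu.2 p hp).2.1⟩)
    H.tO H.iO.pred (H.b 0) (H.b 1) p11 p12 p21 p22 iD.pred ?_ (H.nb 0).pred (H.nb 1).pred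
    (sol 4 four_ne_zero (xq H.chi p11 p12 p11 p12) fun a p d hp => (d.X_eq hp).1)
    (sol 4 four_ne_zero (xq H.chi p11 p12 p21 p22) fun a p d hp => (d.X_eq hp).2.1)
    (sol 4 four_ne_zero (xq H.chi p21 p22 p21 p22) fun a p d hp => (d.X_eq hp).2.2)
    (sol 4 four_ne_zero (xq ng p11 p12 p11 p12) fun a p d hp => (d.Y_eq hp).1)
    (sol 4 four_ne_zero (xq ng p11 p12 p21 p22) fun a p d hp => (d.Y_eq hp).2.1)
    (sol 4 four_ne_zero (xq ng p21 p22 p21 p22) fun a p d hp => (d.Y_eq hp).2.2)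
    (fun i hi => sol 2 two_ne_zero (t_wf (fun x y l j => ct x fun _ => ct y fun _ => ct l fun _ =>
      ct j fun _ => H.cur _ _ _ _) i hi) fun a p d hp => d.W_eq hp i hi), iD.b0, H.iO.b0⟩
  refine (H.no.mulr (t_c (1 / 2) H.iO)).pred.congr (H.ev fun a p d hp => ?_)
  have u := nd d.op d.sm_o hp nv
  have m : ∀ᶠ t : ℝ in 𝓝 0, p + t • nv ∈ F.U a :=
    ContinuousAt.eventually_mem (by fun_prop) (by simpa using d.op.mem_nhds hp)
  have e := (nd d.op d.sm_O2 hp nv).unique ((u.mul u).congr_of_eventuallyEq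
    (m.mono fun t ht => ((d.o_sq ht).symm.trans (pow_two _))))
  have o := (d.o_pos hp).ne'
  change dv nv (O2 (h a)) p * (1 / 2 * (Oq (h a) p)⁻¹) = dv nv (Oq (h a)) p
  rw [e]
  simp only [zero_smul, add_zero]
  field_simp
  ring

end Vale.Agent.P354YU
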