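import Vale.Agent.P354YU.HhC
import Vale.Agent.P354SA.Defs
import Vale.Agent.P354Q.Conv
import Vale.Agent.P354R.Lift
import Vale.Agent.P354XM.Inv
import Vale.Agent.P354XD.Base

/-!
The frame of a double null metric which does not rotate along n and is symmetric at the time T.
-/

set_option linter.all false

open scoped ContDiff
open Set Filter Topology

noncomputable section

namespace Vale.Agent.P354YU

open Vale.Agent.P354n (R4)
open Vale.Agent.P354C Vale.Agent.P354C.Ix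
open Vale.Agent.P354GT (Fu)
open Vale.Agent.P354R (Met Vac brA brB dE_vals)
open Vale.Agent.P354RC (Rm Rp)
open Vale.Agent.P354XD (tb rp_tb)
open Vale.Agent.P354XE (Tw)
open Vale.Agent.P354SA (ey dv gm dg gi bb lv O2)

def sq (h : Tw) (p : R4) : ℝ := √(dg h p)
def tq (h : Tw) (p : R4) : ℝ := √(gm h 0 0 p + gm h 1 1 p + 2 * sq h p)
def Oq (h : Tw) (p : R4) : ℝ := √(O2 h p)
def kq (h : Tw) (p : R4) : ℝ := Oq h p * ((sq h p)⁻¹ * (tq h p)⁻¹)

/-- The rate of the rotation, and the angle. -/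
def wq (h : Tw) (p : R4) : ℝ :=
  -((gm h 0 0 p - gm h 1 1 p) * dv nv (gm h 0 1) p +
    gm h 0 1 p * (dv nv (gm h 1 1) p - dv nv (gm h 0 0) p)) *
      (1 / 2 * ((sq h p)⁻¹ * ((tq h p)⁻¹ * (tq h p)⁻¹)))
def aq (T : ℝ) (h : Tw) (p : R4) : ℝ := ∫ s in T..p.1, wq h (lp p s)

/-- The frame, and all unknowns. -/
def Vh (T : ℝ) (h : Tw) (p : R4) : Ix → ℝ
  | .O => Oq h p
  | .b1 => bb h 0 p
  | .b2 => bb h 1 p
  | .P11 => kq h p * (Real.cos (aq T h p) * (gm h 1 1 p + sq h p) - Real.sin (aq T h p) * gm h 0 1 p)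
  | .P12 => kq h p * (Real.sin (aq T h p) * (gm h 0 0 p + sq h p) - Real.cos (aq T h p) * gm h 0 1 p)
  | .P21 => kq h p * (-(Real.cos (aq T h p) * gm h 0 1 p) -
      Real.sin (aq T h p) * (gm h 1 1 p + sq h p))
  | .P22 => kq h p * (Real.cos (aq T h p) * (gm h 0 0 p + sq h p) + Real.sin (aq T h p) * gm h 0 1 p)
  | _ => 0
def Uh (T : ℝ) (h : Tw) : R4 → Ix → ℝ := L2 (Vh T h)

/-- A double null vacuum metric on D. -/
structure Dn (T : ℝ) (h : Tw) (D : Set R4) : Prop where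
  op : IsOpen D
  seg : ∀ p ∈ D, ∀ s ∈ uIcc T p.1, lp p s ∈ D
  met : Met h D
  vac : Vac h D
  null : ∀ p ∈ D, h p nv nv = 0 ∧ (∀ a, h p nv (ey a) = 0) ∧ h p (lv h p) (lv h p) = 0
  pos : ∀ p ∈ D, 0 < O2 h p ∧ 0 < dg h p ∧ 0 < gm h 0 0 p

theorem sm_dv {f : R4 → ℝ} {D : Set R4} (hD : IsOpen D) (h : ContDiffOn ℝ ∞ f D) (v : R4) :
    ContDiffOn ℝ ∞ (dv v f) D :=
  (h.fderiv_of_isOpen hD (m := ∞) (by simp)).clm_apply contDiffOn_const

theorem nd {f : R4 → ℝ} {D : Set R4} {p : R4} (hD : IsOpen D) (h : ContDiffOn ℝ ∞ f D)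
    (hp : p ∈ D) (v : R4) : HasDerivAt (fun t : ℝ => f (p + t • v)) (dv v f p) 0 :=
  line_der ((h.contDiffAt (hD.mem_nhds hp)).differentiableAt (by simp)) v

/-- The algebra of the root. -/
theorem alg {a b c s t o x y : ℝ} (hs : s ^ 2 = a * c - b ^ 2) (ht : t ^ 2 = a + c + 2 * s)
    (s0 : s ≠ 0) (t0 : t ≠ 0) (e : x ^ 2 + y ^ 2 = 1) {p q u v : ℝ}
    (hp : p = o * (s⁻¹ * t⁻¹) * (x * (c + s) - y * b))
    (hq : q = o * (s⁻¹ * t⁻¹) * (y * (a + s) - x * b))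
    (hu : u = o * (s⁻¹ * t⁻¹) * (-(x * b) - y * (c + s)))
    (hv : v = o * (s⁻¹ * t⁻¹) * (x * (a + s) + y * b)) :
    p * v - q * u = o ^ 2 / s ∧ (p ^ 2 + u ^ 2) * s ^ 2 = o ^ 2 * c ∧
      (p * q + u * v) * s ^ 2 = -(o ^ 2 * b) ∧ (q ^ 2 + v ^ 2) * s ^ 2 = o ^ 2 * a := by
  have k : (s⁻¹ * t⁻¹) ^ 2 * t ^ 2 * s ^ 2 = 1 := by field_simp
  have k2 : o ^ 2 / s = o ^ 2 * (s⁻¹ * t⁻¹) ^ 2 * t ^ 2 * s := by field_simp
  rw [k2, hp, hq, hu, hv]
  generalize s⁻¹ * t⁻¹ = z at *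
  refine ⟨?_, ?_, ?_, ?_⟩
  · linear_combination o ^ 2 * z ^ 2 * (((a + s) * (c + s) - b ^ 2) * e - hs - s * ht)
  · linear_combination o ^ 2 * (z ^ 2 * s ^ 2 * (((c + s) ^ 2 + b ^ 2) * e + hs - c * ht) + c * k)
  · linear_combination o ^ 2 * (z ^ 2 * s ^ 2 * (-(b * (a + c + 2 * s)) * e + b * ht) - b * k)
  · linear_combination o ^ 2 * (z ^ 2 * s ^ 2 * (((a + s) ^ 2 + b ^ 2) * e + hs - a * ht) + a * k)

namespace Dn
variable {T : ℝ} {h : Tw} {D : Set R4} (H : Dn T h D) {p : R4}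
include H

theorem c_pos (hp : p ∈ D) : 0 < gm h 1 1 p := by
  have := (H.pos p hp).2.1
  rw [dg] at this
  by_contra k
  nlinarith [sq_nonneg (gm h 0 1 p), mul_nonneg (H.pos p hp).2.2.le (neg_nonneg.2 (not_lt.1 k))]

theorem s_pos (hp : p ∈ D) : 0 < sq h p := Real.sqrt_pos.2 (H.pos p hp).2.1
theorem t2_pos (hp : p ∈ D) : 0 < gm h 0 0 p + gm h 1 1 p + 2 * sq h p := by
  linarith [H.s_pos hp, H.c_pos hp, (H.pos p hp).2.2]
theorem t_pos (hp : p ∈ D) : 0 < tq h p := Real.sqrt_pos.2 (H.t2_pos hp)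
theorem o_pos (hp : p ∈ D) : 0 < Oq h p := Real.sqrt_pos.2 (H.pos p hp).1
theorem s_sq (hp : p ∈ D) : sq h p ^ 2 = gm h 0 0 p * gm h 1 1 p - gm h 0 1 p ^ 2 :=
  Real.sq_sqrt (H.pos p hp).2.1.le
theorem t_sq (hp : p ∈ D) : tq h p ^ 2 = gm h 0 0 p + gm h 1 1 p + 2 * sq h p :=
  Real.sq_sqrt (H.t2_pos hp).le
theorem o_sq (hp : p ∈ D) : Oq h p ^ 2 = O2 h p := Real.sq_sqrt (H.pos p hp).1.le

theorem sm_g (a b : Fin 2) : ContDiffOn ℝ ∞ (gm h a b) D := H.met.smooth _ _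
theorem sm_d : ContDiffOn ℝ ∞ (dg h) D :=
  ((H.sm_g 0 0).mul (H.sm_g 1 1)).sub ((H.sm_g 0 1).pow 2)
theorem sm_O2 : ContDiffOn ℝ ∞ (O2 h) D := (H.met.smooth _ _).neg.div_const 2
theorem sm_gi (a b : Fin 2) : ContDiffOn ℝ ∞ (gi h a b) D := by
  refine ContDiffOn.div ?_ H.sm_d fun p hp => (H.pos p hp).2.1.ne'
  fin_cases a <;> fin_cases b
  exacts [H.sm_g 1 1, (H.sm_g 0 1).neg, (H.sm_g 0 1).neg, H.sm_g 0 0]
theorem sm_b (a : Fin 2) : ContDiffOn ℝ ∞ (bb h a) D :=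
  (ContDiffOn.sum fun b _ => (H.sm_gi a b).mul (H.met.smooth _ _)).neg
theorem sm_s : ContDiffOn ℝ ∞ (sq h) D := H.sm_d.sqrt fun p hp => (H.pos p hp).2.1.ne'
theorem sm_t : ContDiffOn ℝ ∞ (tq h) D :=
  (((H.sm_g 0 0).add (H.sm_g 1 1)).add (contDiffOn_const.mul H.sm_s)).sqrt
    fun p hp => (H.t2_pos hp).ne'
theorem sm_o : ContDiffOn ℝ ∞ (Oq h) D := H.sm_O2.sqrt fun p hp => (H.pos p hp).1.ne'
theorem sm_k : ContDiffOn ℝ ∞ (kq h) D :=
  H.sm_o.mul ((H.sm_s.inv fun p hp => (H.s_pos hp).ne').mul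
    (H.sm_t.inv fun p hp => (H.t_pos hp).ne'))
theorem sm_w : ContDiffOn ℝ ∞ (wq h) D := by
  have i := H.sm_t.inv fun p hp => (H.t_pos hp).ne'
  have d := fun a b => sm_dv H.op (H.sm_g a b) nv
  exact ((((H.sm_g 0 0).sub (H.sm_g 1 1)).mul (d 0 1)).add ((H.sm_g 0 1).mul
    ((d 1 1).sub (d 0 0)))).neg.mul (contDiffOn_const.mul
      ((H.sm_s.inv fun p hp => (H.s_pos hp).ne').mul (i.mul i)))
theorem sm_a : ContDiffOn ℝ ∞ (aq T h) D := int_sm H.op H.sm_w H.seg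

theorem sm_V : ∀ i ∈ [O, b1, b2, P11, P12, P21, P22], ContDiffOn ℝ ∞ (fun z => Vh T h z i) D := by
  have c := H.sm_a.cos
  have s := H.sm_a.sin
  have u := (H.sm_g 1 1).add H.sm_s
  have w := (H.sm_g 0 0).add H.sm_s
  have v := H.sm_g 0 1
  simp only [List.mem_cons, List.not_mem_nil, or_false, forall_eq_or_imp, forall_eq]
  exact ⟨H.sm_o, H.sm_b 0, H.sm_b 1, H.sm_k.mul ((c.mul u).sub (s.mul v)),
    H.sm_k.mul ((s.mul w).sub (c.mul v)), H.sm_k.mul ((c.mul v).neg.sub (s.mul u)),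
    H.sm_k.mul ((c.mul w).add (s.mul v))⟩

theorem root (hp : p ∈ D) : detP (Vh T h p) = Oq h p ^ 2 / sq h p ∧
    (Vh T h p P11 ^ 2 + Vh T h p P21 ^ 2) * sq h p ^ 2 = Oq h p ^ 2 * gm h 1 1 p ∧
    (Vh T h p P11 * Vh T h p P12 + Vh T h p P21 * Vh T h p P22) * sq h p ^ 2 =
      -(Oq h p ^ 2 * gm h 0 1 p) ∧
    (Vh T h p P12 ^ 2 + Vh T h p P22 ^ 2) * sq h p ^ 2 = Oq h p ^ 2 * gm h 0 0 p :=
  alg (H.s_sq hp) (H.t_sq hp) (H.s_pos hp).ne' (H.t_pos hp).ne' (Real.cos_sq_add_sin_sq _)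
    rfl rfl rfl rfl

theorem det_pos (hp : p ∈ D) : 0 < detP (Vh T h p) := by
  rw [(H.root hp).1]
  exact div_pos (pow_pos (H.o_pos hp) 2) (H.s_pos hp)

theorem top (hp : p ∈ D) (e : p.1 = T) : Vh T h p P12 = Vh T h p P21 ∧ 0 < Vh T h p P11 := by
  have : aq T h p = 0 := by simp [aq, e]
  simp only [Vh, this, Real.cos_zero, Real.sin_zero, one_mul, zero_mul, sub_zero, zero_sub,
    true_and]
  exact mul_pos (mul_pos (H.o_pos hp) (mul_pos (inv_pos.2 (H.s_pos hp)) (inv_pos.2 (H.t_pos hp))))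
    (add_pos (H.c_pos hp) (H.s_pos hp))

theorem rot (hp : p ∈ D) :
    br (Vh T h p) (dfr (Vh T h) p) 1 2 3 = br (Vh T h p) (dfr (Vh T h) p) 1 3 2 := by
  have hk := nd H.op H.sm_k hp nv
  have hs := nd H.op H.sm_s hp nv
  have ha := nd H.op H.sm_a hp nv
  have g := fun a b => nd H.op (H.sm_g a b) hp nv
  have e : dv nv (aq T h) p = wq h p := int_nv H.op H.sm_w H.seg hp
  have d : ∀ i ∈ [O, b1, b2, P11, P12, P21, P22], HasDerivAt (fun t : ℝ => Vh T h (p + t • nv) i)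
    (dfr (Vh T h) p 1 i) 0 := fun i hi => nd H.op (H.sm_V i hi) hp nv
  have e1 := (d P11 (by simp)).unique
    (hk.mul ((ha.cos.mul ((g 1 1).add hs)).sub (ha.sin.mul (g 0 1))))
  have e2 := (d P12 (by simp)).unique
    (hk.mul ((ha.sin.mul ((g 0 0).add hs)).sub (ha.cos.mul (g 0 1))))
  have e3 := (d P21 (by simp)).unique
    (hk.mul ((ha.cos.mul (g 0 1)).neg.sub (ha.sin.mul ((g 1 1).add hs))))
  have e4 := (d P22 (by simp)).unique
    (hk.mul ((ha.cos.mul ((g 0 0).add hs)).add (ha.sin.mul (g 0 1))))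
  simp only [zero_smul, add_zero, Pi.add_apply, Pi.sub_apply, Pi.mul_apply, Pi.neg_apply] at e1 e2 e3 e4
  rw [brA, brB]
  congr 1
  simp only [dE_vals, sub_zero]
  have w : wq h p * (2 * (sq h p * tq h p ^ 2)) = -((gm h 0 0 p - gm h 1 1 p) * dv nv (gm h 0 1) p +
      gm h 0 1 p * (dv nv (gm h 1 1) p - dv nv (gm h 0 0) p)) := by
    have := (H.s_pos hp).ne'
    have := (H.t_pos hp).ne'
    rw [wq]
    field_simp
  rw [e1, e2, e3, e4, e]
  simp only [Vh]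
  have k := Real.cos_sq_add_sin_sq (aq T h p)
  linear_combination kq h p ^ 2 * (w + (wq h p * (2 * ((gm h 0 0 p + sq h p) *
    (gm h 1 1 p + sq h p) - gm h 0 1 p ^ 2)) + (gm h 0 0 p - gm h 1 1 p) * dv nv (gm h 0 1) p +
      gm h 0 1 p * (dv nv (gm h 1 1) p - dv nv (gm h 0 0) p)) * k -
    2 * wq h p * (H.s_sq hp + sq h p * H.t_sq hp))

/-- The metric in the frame l, n, d1, d2. -/
theorem expand (hp : p ∈ D) (s t c d s' t' c' d' : ℝ) :
    h p (s • lv h p + t • nv + c • ey 0 + d • ey 1) (s' • lv h p + t' • nv + c' • ey 0 + d' • ey 1) =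
      -2 * O2 h p * (s * t' + t * s') + gm h 0 0 p * (c * c') + gm h 0 1 p * (c * d' + d * c') +
        gm h 1 1 p * (d * d') := by
  have r := rp_tb H.op H.met
  obtain ⟨n1, n2, n3⟩ := H.null p hp
  have sy := r.symm p hp
  have l : lv h p = (1, 1, 0, 0) + bb h 0 p • ey 0 + bb h 1 p • ey 1 := by simp [lv, ey]
  have d0 := (H.pos p hp).2.1.ne'
  have g10 : gm h 1 0 p = gm h 0 1 p := H.met.symm p hp _ _
  have le : ∀ a, h p (lv h p) (ey a) = 0 := fun a => by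
    rw [r.eq p hp, l]
    simp only [map_add, map_smul, ContinuousLinearMap.add_apply,
      ContinuousLinearMap.smul_apply, smul_eq_mul, ← r.eq p hp]
    change _ + _ * gm h 0 a p + _ * gm h 1 a p = 0
    simp only [bb, gi, Fin.sum_univ_two, Matrix.cons_val_zero, Matrix.cons_val_one]
    fin_cases a
    · simp only [Fin.zero_eta, g10]
      field_simp
      rw [dg]
      ring
    · simp only [Fin.mk_one]
      field_simp
      rw [dg]
      ring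
  have ln : h p nv (lv h p) = -2 * O2 h p := by
    rw [r.eq p hp, l]
    simp only [map_add, map_smul, smul_eq_mul]
    simp only [← r.eq p hp, n2, O2]
    change h p nv (1, 1, 0, 0) + _ + _ = -2 * (-h p nv (1, 1, 0, 0) / 2)
    ring
  rw [r.eq p hp]
  simp only [map_add, map_smul, ContinuousLinearMap.add_apply, ContinuousLinearMap.smul_apply,
    smul_eq_mul, sy (ey _) (lv h p), sy (ey _) nv, sy (lv h p) nv, sy (ey 1) (ey 0)]
  simp only [← r.eq p hp, n1, n2, n3, le, ln, gm]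
  ring

theorem met_eq (hp : p ∈ D) : P354C.met (Vh T h) p = h p := by
  funext a b
  have k : ∀ a : R4, a = ((a.1 + a.2.1) / 2) • lv h p + ((a.1 - a.2.1) / 2) • nv +
      (a.2.2.1 - bb h 0 p * ((a.1 + a.2.1) / 2)) • ey 0 +
      (a.2.2.2 - bb h 1 p * ((a.1 + a.2.1) / 2)) • ey 1 := fun a => by
    ext <;> simp [lv, nv, ey] <;> ring
  conv_rhs => rw [k a, k b, H.expand hp]
  obtain ⟨r0, r1, r2, r3⟩ := H.root hp
  have s0 := (H.s_pos hp).ne'
  have o0 := (H.o_pos hp).ne'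
  simp only [P354C.met, eta, th, Matrix.cons_val_zero, Matrix.cons_val_one, Matrix.cons_val, r0,
    ← H.o_sq hp]
  have e1 : Vh T h p O = Oq h p := rfl
  have e2 : Vh T h p b1 = bb h 0 p := rfl
  have e3 : Vh T h p b2 = bb h 1 p := rfl
  rw [e1, e2, e3]
  generalize a.2.2.1 - _ = c
  generalize a.2.2.2 - _ = d
  generalize b.2.2.1 - _ = c'
  generalize b.2.2.2 - _ = d'
  field_simp
  linear_combination 2 * (c * c' * r3 - (c * d' + d * c') * r2 + d * d' * r1)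

theorem rp : Rp (P354C.met (Vh T h)) (tb h) D :=
  have r := rp_tb H.op H.met
  ⟨r.op, fun y hy a b => by rw [H.met_eq hy, r.eq y hy], r.sm, r.symm, r.nd⟩

theorem met_U : P354C.met (Uh T h) = P354C.met (Vh T h) := rfl

theorem fu : Fu (Uh T h) D := by
  obtain ⟨-, k1, -, -, k2⟩ := P354Q.conv (Vh T h) D H.op H.sm_V fun p hp =>
    ⟨(H.det_pos hp).ne', (H.o_pos hp).ne', H.rot hp⟩
  obtain ⟨G, hG⟩ := H.rp.vac.2 ((rp_tb H.op H.met).vac.1 H.vac)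
  exact ⟨k1, fun p hp => ⟨H.o_pos hp, (H.det_pos hp).ne', k2 G hG p hp⟩⟩

/-- The curvature on the frame. -/
theorem riem (hp : p ∈ D) (x y k j : Fin 4) :
    Rm (tb h) p (fr (Uh T h p) x) (fr (Uh T h p) y) (fr (Uh T h p) k) (fr (Uh T h p) j) =
      Oq h p ^ 2 * eta (fun i => Wy (Uh T h p) i k x y) fun i => if i = j then 1 else 0 := by
  have f := H.fu
  have v := P354Q.vac (Uh T h) D H.op f.1 fun p hp =>
    ⟨(f.2 p hp).2.1, (f.2 p hp).1.ne', (f.2 p hp).2.2.tor, (f.2 p hp).2.2.dO⟩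
  rw [← H.rp.riem hp (G := con (Uh T h)) fun z hz => (v z hz).1]
  refine ((v p hp).2.1 k x y _).trans ?_
  simp only [(f.2 p hp).2.2.cur, zero_add, P354Q.th_fr' (f.2 p hp).2.1]
  rfl

end Dn

end Vale.Agent.P354YU
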