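import Vale.Agent.P354YU.HhD
import Vale.Agent.P354YJ.Rot

/-!
CVT: from a double null metric to the unknowns on the slab.
-/

set_option linter.all false

open scoped ContDiff
open Set Filter Topology MeasureTheory

noncomputable section

namespace Vale.Agent.P354YU

open Vale.Agent.P354n (R4)
open Vale.Agent.P354H (X3 pdl)
open Vale.Agent.P354A (dxl cmp Pb)
open Vale.Agent.P354K (n0)
open Vale.Agent.P354C Vale.Agent.P354C.Ix
open Vale.Agent.P354GT (Fu)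
open Vale.Agent.P354XE (Tw)
open Vale.Agent.P354XP
open Vale.Agent.P354XP.Fr
open Vale.Agent.P354XB (Box top Win)
open Vale.Agent.P354XM (ml_Rm)
open Vale.Agent.P354YQ (JB)
open Vale.Agent.P354YJ (RT RT_eq rotF rot cs sn nn al be ang omg)
open Vale.Agent.P354SA (dv gm dg gi bb lv O2 lie fv rie Cl dl DN Pz wz Slab2 CVT)

theorem cl_ifd {n : ℕ} {θ c : ℝ} {f : R4 → ℝ} {z : R4} (hθ : 0 < θ) (h : Cl n θ⁻¹ θ⁻¹ f z c) :
    ContDiffAt ℝ ∞ f z ∧ ∀ j ≤ n, ‖iteratedFDeriv ℝ j f z‖ ≤ c * θ ^ j := by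
  let L : R4 ≃L[ℝ] R4 := (LinearEquiv.smulOfNeZero ℝ R4 θ hθ.ne').toContinuousLinearEquiv
  have hL : ∀ x, L x = θ • x := fun _ => rfl
  have e : f = fun x => ((fun ξ => f (dl θ⁻¹ θ⁻¹ z ξ)) ∘ L) (x - z) := by
    funext x
    have : dl θ⁻¹ θ⁻¹ z (L (x - z)) = z + θ⁻¹ • θ • (x - z) := rfl
    rw [Function.comp, this, inv_smul_smul₀ hθ.ne', add_sub_cancel]
  generalize (fun ξ => f (dl θ⁻¹ θ⁻¹ z ξ)) = g at e
  have h' : JB n g 0 c := by
    have : g = fun ξ => f (dl θ⁻¹ θ⁻¹ z ξ) := by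
      funext ξ
      have k : dl θ⁻¹ θ⁻¹ z ξ = z + θ⁻¹ • ξ := rfl
      simp only [e, k, add_sub_cancel_left, Function.comp, hL, smul_inv_smul₀ hθ.ne']
    exact this ▸ h
  subst e
  refine ⟨ContDiffAt.comp (g := g ∘ L) z (ContDiffAt.comp _ (by simpa using h'.sm.at)
    L.contDiff.contDiffAt) (by fun_prop), fun j hj => ?_⟩
  have k := L.iteratedFDerivWithin_comp_right g uniqueDiffOn_univ (mem_univ (L 0)) j
  simp only [preimage_univ, iteratedFDerivWithin_univ, map_zero] at k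
  rw [iteratedFDeriv_comp_sub, sub_self, k]
  refine (ContinuousMultilinearMap.norm_compContinuousLinearMap_le _ _).trans ?_
  rw [Finset.prod_const, Finset.card_univ, Fintype.card_fin]
  refine mul_le_mul (h'.le j hj) (pow_le_pow_left₀ (norm_nonneg _)
    (ContinuousLinearMap.opNorm_le_bound _ hθ.le fun x => ?_) _) (by positivity) h'.nonneg
  rw [ContinuousLinearEquiv.coe_coe, hL, norm_smul, Real.norm_of_nonneg hθ.le]

theorem cl_mul {n : ℕ} {l k a c : ℝ} {f : R4 → ℝ} {z : R4} (ha : 0 ≤ a) (h : Cl n l k f z c) :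
    Cl n l k (fun x => a * f x) z (a * c) :=
  (JB.clm (ContinuousLinearMap.mul ℝ ℝ a) h).mono (by
    rw [ContinuousLinearMap.opNorm_mul_apply, Real.norm_of_nonneg ha])

theorem rie_one (h : Tw) (V : R4 → R4) {r : ℝ} (hr : r ≠ 0) (i j k l : Fin 4) :
    rie h (fv V nv 1) i j k l =
      fun x => zr r i * zr r j * zr r k * zr r l * rie h (fv V nv r) i j k l x := by
  funext x
  have e : ∀ i, fv V nv 1 x i = zr r i • fv V nv r x i := by
    refine P354Q.fin4 ?_ ?_ ?_ ?_ <;> simp [fv, zr, smul_inv_smul₀ hr]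
  have m := ml_Rm (P354XD.tb h) x
  simp only [rie, e, (m.l1 _ _ _).map_smul, (m.l2 _ _ _).map_smul, (m.l3 _ _ _).map_smul,
    (m.l4 _ _ _).map_smul, smul_eq_mul]
  ring

/-- The parameters. -/
structure Pa where
  (β T δ R w θ ℓ : ℝ)
  (rb mt ϑ π : ℝ → ℝ)
  h : Tw

def Pa.Ok (k : ℕ) (C : ℝ) (a : Pa) : Prop := DN k C a.β a.T a.δ a.R a.w a.θ a.ℓ a.rb a.mt a.ϑ a.π a.h
def Pa.B (a : Pa) : Set R4 := Box (-a.δ) (a.T + a.δ) (a.R - 3 * a.w) (a.R + 4 * a.w) 6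
def Pa.U (a : Pa) : R4 → Ix → ℝ := Uh a.T a.h

theorem Pa.op (a : Pa) : IsOpen a.B :=
  (isOpen_Ioo.preimage continuous_fst).inter ((isOpen_Ioo.preimage
    (f := fun p : R4 => p.1 + p.2.1) (by fun_prop)).inter
    (isOpen_lt (f := fun p : R4 => ‖p.2.2‖) (by fun_prop) continuous_const))

variable {k : ℕ} {C : ℝ} {a : Pa} {b : Bool} {p : R4} {s f : Fn Pa R4}

theorem Pa.Ok.wt (h : a.Ok k C) (hp : p ∈ a.B) : 1 ≤ a.rb p.1 ∧ a.rb p.1 ≤ C * a.T ∧
    (a.rb p.1)⁻¹ ≤ a.mt p.1 ∧ a.mt p.1 ≤ C ∧ 1 ≤ a.ϑ p.1 ∧ a.ϑ p.1 ≤ a.θ ∧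
      (a.T - 1 ≤ p.1 → a.rb p.1 ≤ C ∧ a.ϑ p.1 = 1) := DN.wt h _ (Ioo_subset_Icc_self hp.1)

theorem Pa.Ok.hT (h : a.Ok k C) : a.T ∈ Ioo (-a.δ) (a.T + a.δ) := by
  obtain ⟨-, h1, h2, -⟩ := DN.par h
  exact ⟨by linarith, by linarith⟩

theorem Pa.Ok.seg (h : a.Ok k C) (hp : p ∈ a.B) (s : ℝ) (hs : s ∈ uIcc a.T p.1) : lp p s ∈ a.B := by
  refine ⟨(lp_fst p s).symm ▸ ordConnected_Ioo.uIcc_subset h.hT hp.1 hs, ?_, ?_⟩
  · have : (lp p s).1 + (lp p s).2.1 = p.1 + p.2.1 := by simp [lp, nv]; ring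
    exact this ▸ hp.2.1
  · have : (lp p s).2.2 = p.2.2 := by simp [lp, nv]
    exact this ▸ hp.2.2

theorem Pa.Ok.dn (h : a.Ok k C) : Dn a.T a.h a.B := by
  have c : 0 < C⁻¹ := inv_pos.2 (one_pos.trans_le (DN.par h).1)
  exact ⟨a.op, fun p hp => h.seg hp, DN.met h, DN.vac h, fun p hp => (DN.pt h p hp).null,
    fun p hp => ⟨c.trans_le (DN.pt h p hp).pos.1, (mul_pos c (pow_pos (one_pos.trans_le
      (h.wt hp).1) 4)).trans_le (DN.pt h p hp).pos.2.1, (DN.pt h p hp).pos.2.2⟩⟩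

/-- The whole slab (b false) and the top slice (b true). -/
def frm (k : ℕ) (C : ℝ) (b : Bool) : P354XP.Fr Pa R4 where
  l := 𝓟 {a | a.Ok k C}
  e := ev
  U := Pa.B
  V a := {p ∈ a.B | b = true → p.1 = a.T}
  G a := 2 * C * bif b then 1 else a.ℓ
  c _ := tm Pa.ϑ
  ok := eventually_principal.2 fun a h => ⟨a.op, fun _ hp => hp.1, by
    obtain ⟨h1, -, -, -, -, h2⟩ := DN.par h
    cases b <;> simp only [cond] <;> nlinarith,
    fun _ p hp => zero_le_one.trans (Pa.Ok.wt h hp.1).2.2.2.2.1⟩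

theorem le_G (h : a.Ok k C) : C ≤ (frm k C b).G a := by
  obtain ⟨h1, -, -, -, -, h2⟩ := DN.par h
  cases b <;> simp only [frm, cond] <;> nlinarith

theorem b0_of (h : ∀ a, a.Ok k C → ∀ p ∈ a.B, |f a p| ≤ C * s a p) : (frm k C b).B0 s f :=
  ⟨1, eventually_principal.2 fun a o p hp => (h a o p hp.1).trans (mul_le_mul_of_nonneg_right
    ((le_G o).trans_eq (pow_one _).symm) (nonneg_of_mul_nonneg_right
      ((abs_nonneg _).trans (h a o p hp.1)) (one_pos.trans_le (DN.par o).1)))⟩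

theorem t_of (h : ∀ a, a.Ok k C → ∀ p ∈ a.B, ∃ c, c = C * s a p ∧
    Cl k (a.ϑ p.1)⁻¹ (a.ϑ p.1)⁻¹ (f a) p c) : (frm k C b).T k s f := by
  have k1 := fun a o p hp => (h a o p hp).imp fun c k =>
    And.intro k.1 (cl_ifd (one_pos.trans_le (Pa.Ok.wt o hp).2.2.2.2.1) k.2)
  refine T.of_ifd (c := tm Pa.ϑ) (fun i => ?_) (fun _ => rfl)
    (eventually_principal.2 fun a o p hp => ?_) fun j hj => b0_of fun a o p hp => ?_
  · fin_cases i <;> simp [frm, ev, P354H.e, Prod.norm_def]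
  · obtain ⟨c, -, k2⟩ := k1 a o p hp
    exact k2.1.contDiffWithinAt
  · obtain ⟨c, rfl, k2⟩ := k1 a o p hp
    rw [abs_norm]
    exact (k2.2 j hj).trans_eq (mul_assoc _ _ _)

theorem inp (k : ℕ) (C : ℝ) (b : Bool) : Inp (frm k C b) Pa.T Pa.h (tm Pa.rb)
    (tm fun a t => (a.rb t)⁻¹) (tm Pa.ϑ) Pa.mt k := by
  have r0 : ∀ a : Pa, a.Ok k C → ∀ p ∈ a.B, 0 < a.rb p.1 := fun a o p hp =>
    one_pos.trans_le (o.wt hp).1
  have sV : ∀ a : Pa, a.Ok k C → ∀ p ∈ (frm k C b).V a, ∀ s ∈ uIcc a.T p.1,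
      lp p s ∈ (frm k C b).V a := fun a o p hp s hs => ⟨o.seg hp.1 s hs, fun e => by
    rw [hp.2 e, uIcc_self] at hs
    exact (lp_fst p s).trans hs⟩
  refine ⟨⟨rfl, fun _ => rfl, eventually_principal.2 fun a o p hp => ?_⟩,
    ⟨rfl, eventually_principal.2 fun a o p hp => Pa.Ok.seg o hp, eventually_principal.2 sV,
      fun _ => ⟨0, eventually_principal.2 fun a o p hp => ⟨zero_le_one.trans
        (Pa.Ok.wt o hp.1).2.2.2.2.1, fun s hs => ?_⟩⟩⟩,
    ⟨1, eventually_principal.2 fun a o p hp => ⟨(DN.cm o).1.intervalIntegrable _ _, ?_⟩⟩,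
    eventually_principal.2 fun a o => Pa.Ok.dn o,
    t_of fun a o p hp => ⟨_, (mul_one _).symm, (DN.pt o p hp).one.1⟩,
    b0_of fun a o p hp => ?_,
    fun i => t_of fun a o p hp => ⟨_, (mul_one _).symm, (DN.pt o p hp).one.2.1 i⟩,
    fun i j => t_of fun a o p hp => ⟨_, by simp [tm, pow_two], (DN.pt o p hp).one.2.2 i j⟩,
    b0_of fun a o p hp => ?_,
    t_of fun a o p hp => ⟨_, mul_assoc _ _ _, (DN.pt o p hp).dO⟩,
    fun i => t_of fun a o p hp => ⟨_, by simp only [tm, Pi.mul_apply]; ring, (DN.pt o p hp).db i⟩,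
    fun i j => t_of fun a o p hp => ⟨_, by simp only [tm, Pi.mul_apply]; ring, (DN.pt o p hp).dg i j⟩,
    fun i j => t_of fun a o p hp => ⟨_, by simp only [tm, Pi.mul_apply]; ring, (DN.pt o p hp).chi i j⟩,
    fun i j l m => t_of fun a o p hp => ?_⟩
  · obtain ⟨w1, -, w2, w3, w4, -⟩ := Pa.Ok.wt o hp.1
    exact ⟨mul_inv_cancel₀ (r0 a o p hp.1).ne', inv_pos.2 (r0 a o p hp.1), w2,
      w3.trans (le_G o), w4⟩
  · simp only [frm, tm, lp_fst, pow_zero, one_mul]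
    rcases le_total p.1 a.T with e | e
    · exact DN.anti o ((uIcc_of_ge e ▸ hs : s ∈ Icc _ _).1)
    · have := (Pa.Ok.wt o (Pa.Ok.seg o hp.1 s hs)).2.2.2.2.2.2
      rw [lp_fst] at this
      rw [(this (by linarith [(uIcc_of_le e ▸ hs : s ∈ Icc _ _).1])).2]
      exact (Pa.Ok.wt o hp.1).2.2.2.2.1
  · obtain ⟨h1, -, -, -, -, h2⟩ := DN.par o
    cases b
    · have := intervalIntegral.abs_integral_mono_interval (f := a.mt) (μ := volume)
        (a := a.T) (b := p.1) (c := -a.δ) (d := a.T + a.δ) (by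
          rw [uIoc_of_le ((Pa.Ok.hT o).1.trans (Pa.Ok.hT o).2).le]
          exact uIoc_subset_uIcc.trans ((ordConnected_Ioo.uIcc_subset (Pa.Ok.hT o) hp.1.1).trans
            Ioo_subset_Ioc_self)) (.of_forall (DN.cm o).2.1) ((DN.cm o).1.intervalIntegrable _ _)
      rw [abs_of_nonneg (intervalIntegral.integral_nonneg ((Pa.Ok.hT o).1.trans
        (Pa.Ok.hT o).2).le fun t _ => (DN.cm o).2.1 t)] at this
      refine (this.trans (DN.cm o).2.2).trans ?_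
      simp only [frm, cond]
      nlinarith
    · rw [hp.2 rfl]
      simp only [frm, cond, intervalIntegral.integral_same, abs_zero]
      positivity
  · have := (Pa.Ok.dn o).pos p hp
    simp only [Pi.inv_apply, Pi.one_apply, mul_one, abs_of_pos (inv_pos.2 this.1)]
    exact inv_le_of_inv_le₀ (one_pos.trans_le (DN.par o).1) (DN.pt o p hp).pos.1
  · have := (Pa.Ok.dn o).pos p hp
    have c := one_pos.trans_le (DN.par o).1
    have r := r0 a o p hp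
    simp only [Pi.inv_apply, Pi.mul_apply, tm, abs_of_pos (inv_pos.2 this.2.1)]
    exact (inv_anti₀ (by positivity) (DN.pt o p hp).pos.2.1).trans_eq (by field_simp)
  · have z : ∀ i, zr (tm Pa.rb) i a p = zr (a.rb p.1) i ∧ 0 ≤ zr (a.rb p.1) i :=
      P354Q.fin4 ⟨rfl, zero_le_one⟩ ⟨rfl, zero_le_one⟩ ⟨rfl, (r0 a o p hp).le⟩
        ⟨rfl, (r0 a o p hp).le⟩
    rw [rie_one _ _ (r0 a o p hp).ne']
    refine ⟨_, ?_, cl_mul (mul_nonneg (mul_nonneg (mul_nonneg (z i).2 (z j).2) (z l).2) (z m).2)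
      ((DN.pt o p hp).cur i j l m)⟩
    simp only [Pi.mul_apply, (z _).1, tm]
    ring

theorem dw_eq {P : Type} (α : List (Fin 3)) (f : Fn P R4) (a : P) : Dw ev α f a = dxl α (f a) := by
  induction α generalizing f with
  | nil => rfl
  | cons i α ih => exact ih _

theorem words {ι : Type} [Fintype ι] {n : ℕ} {s f : ι → Fn Pa R4}
    (h : ∀ i, (frm k C b).T n (s i) (f i)) : ∃ N : ℕ, ∀ a, a.Ok k C → ∀ p ∈ (frm k C b).V a, ∀ i,
      ∀ α : List (Fin 3), α.length ≤ n →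
        |dxl α (f i a) p| ≤ (frm k C b).G a ^ N * s i a p * a.ϑ p.1 ^ α.length := by
  choose N hN using fun i => (h i).b.words
  refine ⟨∑ i, N i, fun a o p hp i α hα => ?_⟩
  have k1 := eventually_principal.1 (hN i) a o α hα p hp
  have k2 : (α.map (frm k C b).c).prod a p = a.ϑ p.1 ^ α.length := by
    simp [frm, tm]
  have g : 1 ≤ (frm k C b).G a := (DN.par o).1.trans (le_G o)
  rw [Pi.mul_apply, Pi.mul_apply, k2] at k1
  rw [mul_assoc, ← dw_eq]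
  exact k1.trans (mul_le_mul_of_nonneg_right (pow_le_pow_right₀ g (Finset.single_le_sum
    (fun _ _ => Nat.zero_le _) (Finset.mem_univ i))) (nonneg_of_mul_nonneg_right
      ((abs_nonneg _).trans k1) (by positivity)))

/-- All bounds. -/
theorem bds (n : ℕ) (C : ℝ) (b : Bool) : ∃ N : ℕ, ∀ a : Pa, a.Ok (n + 8) C →
    ∀ p ∈ (frm (n + 8) C b).V a, ∀ L, L = (frm (n + 8) C b).G a ^ N →
      (a.U p O)⁻¹ ≤ L ∧ (detP (a.U p))⁻¹ ≤ L * a.rb p.1 ^ 2 ∧ ∀ i, ∀ α : List (Fin 3),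
        (α.length ≤ n + 7 → |dxl α (cmp a.U i) p| ≤
          L * sz (tm Pa.mt) (tm Pa.ϑ) i a p * a.ϑ p.1 ^ α.length) ∧
        (α.length ≤ n → |dxl α (P354H.dt (cmp a.U i)) p| ≤ L * a.ϑ p.1 ^ (3 + α.length)) := by
  have I := inp (n + 8) C b
  obtain ⟨h1, ⟨N3, h3⟩, ⟨N4, h4⟩⟩ := Inp.all (k := n + 7) I
  have S := I.S
  have h5 : ∀ i, (frm (n + 8) C b).T (n + 1) (tm Pa.ϑ) (uf (fun a : Pa => Uh a.T a.h) i) := fun i => by
    have k := (h1 i).low (show n + 1 ≤ n + 7 by omega)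
    cases i <;> first
      | exact k
      | exact S.up2 k
      | exact (S.up3 k).wt (one_mul _)
      | exact (S.up3 (S.up2 (k.wt (one_mul _).symm))).wt (one_mul _)
  obtain ⟨N1, h1⟩ := words h1
  obtain ⟨N2, h2⟩ := words (bd_dt S (I.ev fun a p d hp =>
    ⟨(d.fu.2 p hp).2.2, (d.fu.2 p hp).1.ne', (d.fu.2 p hp).2.1⟩) h5)
  refine ⟨N1 + N2 + N3 + N4, fun a o p hp L hL => ?_⟩
  have g : 1 ≤ (frm (n + 8) C b).G a := (DN.par o).1.trans (le_G o)
  have up : ∀ {m : ℕ} {x y : ℝ}, m ≤ N1 + N2 + N3 + N4 → |x| ≤ (frm (n + 8) C b).G a ^ m * y →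
      |x| ≤ L * y := fun hm h => h.trans (mul_le_mul_of_nonneg_right
    (hL ▸ pow_le_pow_right₀ g hm) (nonneg_of_mul_nonneg_right ((abs_nonneg _).trans h) (by positivity)))
  refine ⟨(le_abs_self _).trans ((up (by omega) (eventually_principal.1 h4 a o p hp)).trans_eq
    (mul_one _)), (le_abs_self _).trans ((up (by omega)
      (eventually_principal.1 h3 a o p hp)).trans_eq (by simp [tm, pow_two])),
    fun i α => ⟨fun hα => ?_, fun hα => ?_⟩⟩
  · exact (up (by omega) ((h1 a o p hp i α hα).trans_eq (mul_assoc _ _ _))).trans_eq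
      (mul_assoc _ _ _).symm
  · exact (up (by omega) ((h2 a o p hp i α hα).trans_eq (mul_assoc _ _ _))).trans_eq
      (by simp only [tm, Pi.mul_apply]; ring)

end Vale.Agent.P354YU
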