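import Vale.Agent.P354YU.HhM
import Vale.Agent.P354J.Sl2

/-!
CVT: the theorem.
-/

set_option linter.all false

open scoped ContDiff
open Set Filter Topology

noncomputable section

namespace Vale.Agent.P354YU

open Vale.Agent.P354n (R4)
open Vale.Agent.P354H (X3 pdl)
open Vale.Agent.P354A (dxl cmp Pb)
open Vale.Agent.P354K (n0)
open Vale.Agent.P354C Vale.Agent.P354C.Ix
open Vale.Agent.P354GT (Fu)
open Vale.Agent.P354XB (Box top Win)
open Vale.Agent.P354YJ (RT RT_eq rotF rot cs sn nn al be ang omg nn_pos Ab)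
open Vale.Agent.P354SA (gm dg gi bb O2 DN Pz wz Slab2 CVT)

/-- A symmetric frame is not rotated. -/
theorem rt_id {U : R4 → Ix → ℝ} {D : Set R4} {W : Set X3} {T : ℝ} (hD : IsOpen D) (f : Fu U D)
    (hW : IsOpen W) (m : ∀ z ∈ W, ((T, z.1 - T, z.2) : R4) ∈ D)
    (h : ∀ z ∈ W, 0 < detP (top U T z) ∧ top U T z P12 = top U T z P21 ∧ 0 < top U T z P11)
    {z : X3} (hz : z ∈ W) : RT (top U T) z = top U T z := by
  obtain ⟨y, e⟩ : ∃ y : R4, ∀ x : X3, ((T, x.1 - T, x.2) : R4) = (T, x) + y :=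
    ⟨(0, -T, 0, 0), fun x => by ext <;> simp [sub_eq_add_neg]⟩
  have et : top U T = fun x => U ((T, x) + y) := funext fun x => congrArg U (e x)
  have mz := e z ▸ m z hz
  have sm : ∀ i, ContDiffAt ℝ ∞ (fun p => U (p + y) i) (T, z) := fun i =>
    ((f.1 i).contDiffAt (hD.mem_nhds mz)).comp (T, z) (f := fun p : R4 => p + y) (by fun_prop)
  have hu : ∀ i, ContDiffAt ℝ ∞ (fun x => top U T x i) z := fun i =>
    et ▸ (sm i).comp z (f := fun x : X3 => ((T, x) : R4)) (by fun_prop)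
  have e2 : dfr (fun p => U (p + y)) (T, z) = dfr U ((T, z) + y) := by
    funext k i
    simp only [dfr]
    rw [fderiv_comp_add_right (f := fun p => U p i)]
  have hC := (P354J.dslThm (fun p => U (p + y)) T z fun i =>
    (sm i).differentiableAt (by simp)).1 (e2 ▸ P354R.Full.constr (f.2 _ mz).2.2)
  have s0 : ∀ x ∈ W, sn (top U T x) = 0 := fun x hx => by simp [sn, be, (h x hx).2.1]
  have c1 : cs (top U T z) = 1 := by
    obtain ⟨h1, h2, h3⟩ := h z hz
    have k : 0 < al (top U T z) := by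
      rw [detP, h2] at h1
      have : 0 < top U T z P22 :=
        (mul_pos_iff_of_pos_left h3).1 (by nlinarith [mul_self_nonneg (top U T z P21)])
      exact add_pos h3 this
    rw [cs, nn, be, h2, sub_self, zero_pow two_ne_zero, add_zero, Real.sqrt_sq k.le, div_self k.ne']
  have d0 : fderiv ℝ (fun x => sn (top U T x)) z = 0 := by
    rw [EventuallyEq.fderiv_eq (f := fun _ => (0 : ℝ)) (mem_of_superset (hW.mem_nhds hz) s0)]
    simp
  rw [RT_eq hu (nn_pos (h z hz).1) (by rw [et]; exact hC)]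
  funext i
  have a0 : ang (top U T) (fun x => cs (top U T x)) (fun x => sn (top U T x)) z = 0 := by
    funext r
    simp [ang, omg, d0, s0 z hz]
  simp only [rotF, a0, c1, s0 z hz]
  cases i <;> simp [rot]

theorem sz_le {P : Type} {m ϑ : P → R4 → ℝ} {a : P} {p : R4} {x y : ℝ} (hx : 1 ≤ x) (hy : 1 ≤ y)
    (h0 : 0 ≤ m a p) (h1 : m a p ≤ x) (h2 : ϑ a p ≤ y) (i : Ix) : sz m ϑ i a p ≤ x * y := by
  have k1 : 1 ≤ x * y := by nlinarith
  have k2 : m a p ≤ x * y := by nlinarith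
  have k3 : ϑ a p ≤ x * y := by nlinarith
  have k4 : ϑ a p * m a p ≤ x * y := by nlinarith
  cases i <;> assumption

theorem cvt : CVT := by
  intro n C
  by_cases hC : 1 ≤ C
  swap
  · exact ⟨1, 0, le_rfl, fun _ _ _ _ _ _ _ _ _ _ _ _ o => absurd o.par.1 hC⟩
  obtain ⟨N1, h1⟩ := bds n C false
  obtain ⟨N2, h2⟩ := bds n C true
  have c2 : 1 ≤ 2 * C := by linarith
  obtain ⟨E, hE⟩ : ∃ E, E = (2 * C) ^ (N1 + N2 + 2) := ⟨_, rfl⟩
  have E1 : ∀ m ≤ N1 + N2 + 2, (2 * C) ^ m ≤ E := fun m hm => hE ▸ pow_le_pow_right₀ c2 hm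
  have E0 : 2 * C ≤ E := by simpa using E1 1 (by omega)
  refine ⟨E, N1 + n + 3, c2.trans E0, fun β T δ R w θ ℓ rb mt ϑ π h o => ?_⟩
  let a : Pa := ⟨β, T, δ, R, w, θ, ℓ, rb, mt, ϑ, π, h⟩
  have oa : a.Ok (n + 8) C := o
  have d : Dn T h a.B := oa.dn
  obtain ⟨-, pT, pδ, -, -, pℓ⟩ := o.par
  have m0 := o.cm.2.1
  have pθ : 1 ≤ θ := by
    obtain ⟨-, -, -, -, k1, k2, -⟩ := o.wt 0 ⟨by linarith, by linarith⟩
    exact k1.trans k2
  refine ⟨Uh T h, fun p hp => d.met_eq hp, fun G hG hl => ?_, fun z hz => ?_⟩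
  · obtain ⟨L, hL⟩ : ∃ L, L = (2 * C * ℓ) ^ N1 := ⟨_, rfl⟩
    have hb := fun p (hp : p ∈ a.B) => h1 a oa p ⟨hp, fun e => by cases e⟩ L hL
    have L0 : 0 ≤ L := hL ▸ by positivity
    have L1 : L ≤ E * ℓ ^ (N1 + n + 3) := by
      rw [hL, mul_pow]
      exact mul_le_mul (E1 _ (by omega)) (pow_le_pow_right₀ pℓ (by omega)) (by positivity)
        (by linarith)
    have le : ∀ {x y : ℝ}, 0 ≤ x → 1 ≤ y → x ≤ x * y := fun hx hy => le_mul_of_one_le_right hx hy
    have E2 : 0 < E := by linarith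
    generalize hQ : E * θ * ℓ * T = Q at hG
    have q1 : E * θ ≤ Q := hQ ▸ (le (by nlinarith) pℓ).trans (le (by positivity) pT)
    have q2 : θ ≤ Q := le_trans (by nlinarith) q1
    have q3 : 1 ≤ Q := pθ.trans q2
    have q4 : 2 * C * ℓ ≤ Q := hQ ▸ (mul_le_mul_of_nonneg_right (E0.trans (le (by linarith) pθ))
      (by linarith)).trans (le (by positivity) pT)
    have q5 : C * T ≤ Q := hQ ▸ mul_le_mul_of_nonneg_right (le_trans (by nlinarith)
      (le (by nlinarith) pℓ)) (by linarith)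
    have q6 : C ≤ Q := (le (by linarith) pT).trans q5
    have qL : L ≤ Q ^ N1 := hL ▸ pow_le_pow_left₀ (by positivity) q4 _
    have qG : ∀ m ≤ n + 3, ∀ x, x ≤ Q ^ m → L * x ≤ G := fun m hm x hx =>
      (mul_le_mul_of_nonneg_left hx L0).trans ((mul_le_mul_of_nonneg_right qL (by positivity)).trans
        (((pow_add _ _ _).symm.trans_le (pow_le_pow_right₀ q3 (by omega))).trans hG))
    have QG : Q ≤ G := (le_self_pow₀ q3 (by omega)).trans hG
    have G0 : 0 < G := by linarith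
    refine ⟨d.fu, fun p hp => ?_, ⟨θ, ⟨pθ, q2.trans QG⟩, fun p hp i α hα => ?_⟩, o.cπ.1, o.cπ.2.2⟩
    · obtain ⟨w1, w2, -, w3, w4, w5, -⟩ := oa.wt hp
      obtain ⟨b1, b2, b3⟩ := hb p hp
      obtain ⟨s1, s2⟩ := (o.pt p hp).sharp
      obtain ⟨-, r1, -, r2⟩ := d.root hp
      have s0 := d.s_pos hp
      have sd : dg h p = sq h p ^ 2 := (d.s_sq hp).symm
      have k1 := s2 0
      have k2 := s2 1
      simp only [gi, Matrix.cons_val_zero, Matrix.cons_val_one, sd, ← d.o_sq hp, ← mul_div_assoc,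
        ← r1, ← r2, mul_div_cancel_right₀ _ (pow_pos s0 2).ne'] at k1 k2
      have tQ : ∀ m, ϑ p.1 ^ m ≤ Q ^ m := fun m =>
        pow_le_pow_left₀ (zero_le_one.trans w4) (w5.trans q2) m
      refine ⟨inv_le_of_inv_le₀ (d.o_pos hp) (b1.trans (by simpa using qG 0 (by omega) 1)),
        inv_le_of_inv_le₀ (d.det_pos hp) (b2.trans (qG 2 (by omega) _
          (pow_le_pow_left₀ (zero_le_one.trans w1) (w2.trans q5) 2))), s1 0, s1 1, ?_,
        fun i => ⟨fun α hα => ?_, fun α hα => ?_⟩⟩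
      · have pi := o.cπ.2.1 p.1
        simp only [List.mem_cons, List.not_mem_nil, or_false, forall_eq_or_imp, forall_eq]
        exact ⟨abs_le_of_sq_le_sq ((le_add_of_nonneg_right (sq_nonneg _)).trans k1) pi,
          abs_le_of_sq_le_sq ((le_add_of_nonneg_right (sq_nonneg _)).trans k2) pi,
          abs_le_of_sq_le_sq ((le_add_of_nonneg_left (sq_nonneg _)).trans k1) pi,
          abs_le_of_sq_le_sq ((le_add_of_nonneg_left (sq_nonneg _)).trans k2) pi⟩
      · refine ((b3 i α).1 (by omega)).trans ((mul_assoc _ _ _).trans_le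
          (qG (2 + α.length) (by omega) _ ?_))
        rw [pow_add, pow_two]
        exact mul_le_mul (sz_le q3 q3 (m0 _) (w3.trans q6) (w5.trans q2) i) (tQ _)
          (pow_nonneg (zero_le_one.trans w4) _) (by positivity)
      · exact ((b3 i α).2 hα).trans (qG _ (by omega) _ (tQ _))
    · obtain ⟨-, -, -, -, w4, w5, -⟩ := oa.wt hp
      have t0 : 0 ≤ ϑ p.1 := zero_le_one.trans w4
      have θ0 : 0 < θ := by linarith
      have k0 : ϑ p.1 ^ α.length ≤ G ^ n0 α * θ ^ (α.length - n0 α) := by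
        conv_lhs => rw [← Nat.add_sub_of_le (show n0 α ≤ α.length from List.count_le_length),
          pow_add]
        exact mul_le_mul (pow_le_pow_left₀ t0 (w5.trans (q2.trans QG)) _)
          (pow_le_pow_left₀ t0 w5 _) (by positivity) (by positivity)
      generalize ℓ ^ (N1 + n + 3) = x at L1 hl ⊢
      have m1 := m0 p.1
      have k5 : L * ϑ p.1 ≤ E * θ * x :=
        (mul_le_mul L1 w5 t0 (L0.trans L1)).trans_eq (by ring)
      have k1 : L * 1 ≤ G := qG 0 (by omega) 1 (by simp)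
      have k2 : L * 1 ≤ Real.log G / θ := by
        rw [le_div_iff₀ θ0]
        nlinarith
      have k3 : L * ϑ p.1 ≤ Real.log G := k5.trans hl
      have k4 : L * mt p.1 ≤ E * θ * x * mt p.1 / θ :=
        (mul_le_mul_of_nonneg_right L1 m1).trans_eq (by field_simp)
      have k6 : L * (ϑ p.1 * mt p.1) ≤ E * θ * x * mt p.1 :=
        (mul_assoc _ _ _).symm.trans_le (mul_le_mul_of_nonneg_right k5 m1)
      have k7 : L * sz (tm Pa.mt) (tm Pa.ϑ) i a p ≤ wz G θ (E * θ * x * mt p.1) i := by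
        cases i <;> assumption
      have k8 := ((hb p hp).2.2 i α).1 (by omega)
      rw [mul_assoc]
      exact k8.trans (mul_le_mul k7 k0 (by positivity) ((nonneg_of_mul_nonneg_left
        ((abs_nonneg _).trans k8) (by positivity)).trans k7))
  · have mW : ∀ z ∈ Win R w 6, ((T, z.1 - T, z.2) : R4) ∈ a.B := fun z hz =>
      ⟨oa.hT, by simpa using hz.1, hz.2⟩
    have hp := mW z hz
    obtain ⟨L, hL⟩ : ∃ L, L = (2 * C * 1) ^ N2 := ⟨_, rfl⟩
    obtain ⟨-, b2, b3⟩ := h2 a oa _ ⟨hp, fun _ => rfl⟩ L hL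
    obtain ⟨w1, -, -, w3, -, -, w6⟩ := oa.wt hp
    obtain ⟨w6, w7⟩ := w6 (sub_le_self _ zero_le_one)
    have L0 : 0 ≤ L := hL ▸ by positivity
    have qE : ∀ x, x ≤ (2 * C) ^ 2 → L * x ≤ E := fun x hx =>
      (mul_le_mul_of_nonneg_left hx L0).trans (by
        rw [hL, mul_one, ← pow_add]
        exact E1 _ (by omega))
    have tp : ∀ z ∈ Win R w 6, 0 < detP (top (Uh T h) T z) ∧
        top (Uh T h) T z P12 = top (Uh T h) T z P21 ∧ 0 < top (Uh T h) T z P11 := fun z hz =>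
      ⟨d.det_pos (mW z hz), d.top (mW z hz) rfl⟩
    have oW : IsOpen (Win R w 6) := (isOpen_Ioo.preimage continuous_fst).inter
      (isOpen_lt (f := fun p : X3 => ‖p.2‖) (by fun_prop) continuous_const)
    refine ⟨inv_le_of_inv_le₀ (tp z hz).1 (b2.trans (qE _ (pow_le_pow_left₀
      (zero_le_one.trans w1) (w6.trans (by linarith)) 2))), (tp z hz).2.1, (tp z hz).2.2,
      rt_id d.op d.fu oW mW tp hz, fun i α hα _ => ?_⟩
    have e : ∀ x : X3, ((T, x.1 - T, x.2) : R4) = (T, x + (-T, 0, 0)) := fun x => by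
      ext <;> simp [sub_eq_add_neg]
    have k := P354YV.pdl_slice d.op T (-T, 0, 0) α (d.fu.1 i) (e z ▸ hp)
    have e' : cmp (top (Uh T h) T) i = fun x => Uh T h (T, x + (-T, 0, 0)) i :=
      funext fun x => congrArg (fun q => Uh T h q i) (e x)
    rw [e', k, ← e]
    refine ((b3 i α).1 (by omega)).trans ?_
    rw [w7, one_pow, mul_one]
    exact qE _ ((sz_le hC le_rfl (m0 _) w3 w7.le i).trans (by nlinarith))

/-- The slab of the step SLAB. -/
theorem slab_of {n : ℕ} {T δ R w G β : ℝ} {c π : ℝ → ℝ} {U : R4 → Ix → ℝ}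
    (h : Slab2 n T δ R w G β c π U) : P354XB.Slab n T δ R w G β c π U := by
  obtain ⟨θ, h1, h2⟩ := h.rate
  refine ⟨h.fu, h.bd, ⟨θ, h1, fun p hp i => ?_⟩, h.cπ, h.int⟩
  have k : ∀ x, wz G θ (c p.1) i = x → P354XB.Pz G θ n (cmp U i) p x := fun x e α hα =>
    (h2 p hp i α hα).trans_eq (by rw [e, mul_assoc])
  refine ⟨fun h3 h4 => k _ ?_, fun h4 => k _ ?_⟩
  · cases i <;> simp [wz, P354XB.kp, P354XB.isP, P354XB.Ex, div_eq_mul_inv] at h3 h4 ⊢
  · rcases h4 with rfl | rfl | rfl | rfl <;> simp [wz, P354XB.kp, P354XB.isP, div_eq_mul_inv]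

end Vale.Agent.P354YU
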