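import Vale.Agent.P354YU.HhN
import Vale.Agent.P354SA.Far
import Vale.Agent.P354KX.Lem
import Vale.Agent.P354YO.Patch
import Vale.Agent.P354YR.Vac

/-!
S1: the slab from the rays.
-/

set_option linter.all false

open scoped ContDiff Nat
open Set Filter Topology

noncomputable section

namespace Vale.Agent.P354YU

open Vale.Agent.P354n (R4 mink)
open Vale.Agent.P354H (X3)
open Vale.Agent.P354I (X rm rp)
open Vale.Agent.P354C (Ix met)
open Vale.Agent.P354R (Pull)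
open Vale.Agent.P354GT (Fu)
open Vale.Agent.P354XE (Tw Lor pb rd xs ch kap ky mir En Par ch_spec ch_pull mem_D0)
open Vale.Agent.P354XA (hor)
open Vale.Agent.P354XU (Jt)
open Vale.Agent.P354XB (Box Win Gro)
open Vale.Agent.P354EN (Dm box_open)
open Vale.Agent.P354YO (mink_neg met_cont met_smul)
open Vale.Agent.P354YQ (JB JD SA)
open Vale.Agent.P354YR (kap_ok pull_comp)
open Vale.Agent.P354YM (Pm Tg Evt)
open Vale.Agent.P354KX (Sb Sq mx lb lb_ne lg_lb)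
open Vale.Agent.P354SA (Ray Rays Bot Ed RD sm dv e0 jS pS RAYS EIK BOT)

variable {g : Tw} {D : Set R4} {Y : R4 → R4} {p : R4} {M a : ℝ}

/-- A null vector is not orthogonal to a timelike vector. -/
theorem nul_ne (l : Lor g D Y) (hp : p ∈ D) {v : R4} (h0 : v ≠ 0) (hv : g p v v = 0) :
    g p v (Y p) ≠ 0 := by
  obtain ⟨L, l1, l2, l3⟩ := l.sig p hp
  have t := l.tl p hp
  have n : L v ≠ 0 := fun e => h0 (l2 (e.trans l1.map_zero.symm))
  rw [l3] at hv t ⊢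
  generalize L v = w at *
  generalize L (Y p) = u at *
  intro e
  have k1 := mink_neg t hv.le
  have k2 := mink_neg (w := -w) t
  obtain ⟨u0, u1, u2, u3⟩ := u
  obtain ⟨w0, w1, w2, w3⟩ := w
  simp only [mink, P354n.cu, P354n.cv, P354n.c1, P354n.c2, Prod.fst_neg, Prod.snd_neg] at *
  rcases lt_trichotomy (u0 * w0) 0 with h | h | h
  · nlinarith [k2 (by linarith) (by linarith)]
  · have : w0 = 0 := (mul_eq_zero.1 h).resolve_left fun h => by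
      subst h
      nlinarith [sq_nonneg u1, sq_nonneg u2, sq_nonneg u3]
    subst this
    refine n ?_
    rw [show w1 = 0 by nlinarith [sq_nonneg w2, sq_nonneg w3],
      show w2 = 0 by nlinarith [sq_nonneg w1, sq_nonneg w3],
      show w3 = 0 by nlinarith [sq_nonneg w1, sq_nonneg w2]]
    rfl
  · nlinarith [k1 h]

/-- The charts keep the sign of the last coordinate. -/
theorem ch_z (ha : a ≠ 0) (hM : |a| < M) (b : Bool) (h : rm M a < rd p) :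
    ∃ c > 0, (ch M a b p).2.2.2 = c * p.2.2.2 := by
  have h1 : 0 < M ^ 2 - a ^ 2 := by nlinarith [sq_abs a, abs_nonneg a]
  have r0 : 0 < ‖xs p‖ := (hor hM).2.1.trans_lt h
  have ky0 : ∀ x, 0 < ky M a x := fun x => by
    have := Real.neg_sqrt_lt_of_sq_lt (show x ^ 2 < x ^ 2 + 2 * √(M ^ 2 - a ^ 2) by
      linarith [Real.sqrt_pos.2 h1])
    exact pow_pos (by linarith) 2
  obtain ⟨c, c0, k⟩ : ∃ c > 0, (kap M a p).2.2.2 = c * p.2.2.2 :=
    ⟨_, div_pos (ky0 _) r0, rfl⟩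
  cases b
  · have r : 0 < rd (kap M a p) := norm_pos_iff.2 (ch_spec kap_ok ha hM true h).2.2.1
    exact ⟨(M ^ 2 - a ^ 2) / (4 * rd (kap M a p) ^ 2) * c, by positivity, by
      rw [mul_assoc, ← k]; rfl⟩
  · exact ⟨c, c0, k⟩

theorem box_cvx (a b v0 v1 r : ℝ) : Convex ℝ (Box a b v0 v1 r) :=
  ((convex_Ioo a b).linear_preimage (LinearMap.fst ℝ ℝ X3)).inter
    (((convex_Ioo v0 v1).linear_preimage (LinearMap.fst ℝ ℝ X3 +
      (LinearMap.fst ℝ ℝ (ℝ × ℝ)).comp (LinearMap.snd ℝ ℝ X3))).inter (by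
      have := (convex_ball (0 : ℝ × ℝ) r).linear_preimage
        ((LinearMap.snd ℝ ℝ (ℝ × ℝ)).comp (LinearMap.snd ℝ ℝ X3))
      simp only [Metric.ball, dist_zero_right] at this
      exact this))

theorem sm_fd {Λ : R4 → ℝ} (h : DifferentiableAt ℝ Λ p) (R : ℝ) (v : R4) :
    fderiv ℝ (sm R Λ) p v = (fderiv ℝ Λ p v, v.1 + v.2.1, v.2.2) :=
  DFunLike.congr_fun (h.hasFDerivAt.prodMk ((((hasFDerivAt_fst (𝕜 := ℝ) (p := p)).add
    (hasFDerivAt_snd (𝕜 := ℝ) (p := p)).fst).sub_const R).prodMk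
      (hasFDerivAt_snd (𝕜 := ℝ) (p := p)).snd)).fderiv v

theorem sm_jd {Λ : R4 → ℝ} {k : ℕ} {x : ℝ} (h : JD k Λ p x) (hx : 1 ≤ x) (R : ℝ) :
    JD k (sm R Λ) p (2 * x) := by
  have i := JD.id (k := k) (z := p)
  have f := fun {E : Type} [NormedAddCommGroup E] [NormedSpace ℝ E] (L : R4 →L[ℝ] E)
    (hL : ∀ v, ‖L v‖ ≤ ‖v‖) => (JD.lin (k := k) (z := p) L).mono (L.opNorm_le_bound zero_le_one
      fun v => (hL v).trans_eq (one_mul _).symm)
  let s := ContinuousLinearMap.snd ℝ ℝ X3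
  refine (h.mono (by linarith)).prod (JD.prod (JD.of_sub (-R) (JD.congr (((f (.fst ℝ ℝ X3) fun v =>
    norm_fst_le v).add (f ((ContinuousLinearMap.fst ℝ ℝ _).comp s) fun v =>
      (norm_fst_le v.2).trans (norm_snd_le v))).mono (by linarith))
    (.of_forall fun q => by simp [s]))) ((f ((ContinuousLinearMap.snd ℝ ℝ _).comp s) fun v =>
      (norm_snd_le v.2).trans (norm_snd_le v)).mono (by linarith)))

theorem sm_inv {Λ : R4 → ℝ} {x y : ℝ} (h : JD 1 Λ p x) (hx : 1 ≤ x) (hy : 1 ≤ y)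
    (k : dv nv Λ p ≤ -y⁻¹) (R : ℝ) (v : R4) : ‖v‖ ≤ 3 * y * x * ‖fderiv ℝ (sm R Λ) p v‖ := by
  rw [sm_fd h.sm.diff]
  have e : fderiv ℝ Λ p v = v.1 * dv nv Λ p + fderiv ℝ Λ p (0, v.1 + v.2.1, v.2.2) := by
    rw [dv, ← smul_eq_mul, ← map_smul, ← map_add]
    congr 1
    ext <;> simp [nv]
  have b := (fderiv ℝ Λ p).le_of_opNorm_le (c := x) (by simpa using h.le 1 le_rfl le_rfl)
    (0, v.1 + v.2.1, v.2.2)
  generalize hu : ((fderiv ℝ Λ p v, v.1 + v.2.1, v.2.2) : R4) = u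
  have u1 : |fderiv ℝ Λ p v| ≤ ‖u‖ := hu ▸ norm_fst_le (fderiv ℝ Λ p v, v.1 + v.2.1, v.2.2)
  have u2 : ‖(v.1 + v.2.1, v.2.2)‖ ≤ ‖u‖ := hu ▸ norm_snd_le (fderiv ℝ Λ p v, v.1 + v.2.1, v.2.2)
  have u3 : |v.1 + v.2.1| ≤ ‖u‖ := (norm_fst_le (v.1 + v.2.1, v.2.2)).trans u2
  have u4 : ‖v.2.2‖ ≤ ‖u‖ := (norm_snd_le (v.1 + v.2.1, v.2.2)).trans u2
  rw [Prod.norm_def (0, _), norm_zero, max_eq_right (norm_nonneg _), Real.norm_eq_abs] at b
  have y0 : 0 < y := by linarith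
  have n := norm_nonneg u
  have k1 : |v.1| * y⁻¹ ≤ 2 * x * ‖u‖ := by
    have k2 : |v.1 * dv nv Λ p| ≤ ‖u‖ + x * ‖u‖ := by
      rw [eq_sub_of_add_eq e.symm]
      exact (abs_sub _ _).trans (add_le_add u1 (b.trans (mul_le_mul_of_nonneg_left u2 (by linarith))))
    rw [abs_mul] at k2
    nlinarith [mul_le_mul_of_nonneg_left ((le_neg.1 k).trans (neg_le_abs _)) (abs_nonneg v.1)]
  rw [mul_inv_le_iff₀ y0] at k1
  have k3 : ‖u‖ ≤ y * x * ‖u‖ := le_mul_of_one_le_left n (by nlinarith)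
  have k4 := abs_sub (v.1 + v.2.1) v.1
  rw [add_sub_cancel_left] at k4
  simp only [Prod.norm_def v, Prod.norm_def v.2, max_le_iff, Real.norm_eq_abs]
  exact ⟨by nlinarith, by nlinarith, by nlinarith⟩

/-- Λ decreases along n. -/
theorem lam_lt {T δ R w : ℝ} {Λ : R4 → ℝ} (hδ : 0 < δ) (hT : 0 < T)
    (h : ∀ p ∈ Dm T δ R w, dv nv Λ p < 0 ∧ DifferentiableAt ℝ Λ p) (hp : p ∈ Dm T δ R w)
    (h0 : 0 < p.1) : Λ p < Λ (0, p.1 + p.2.1, p.2.2) := by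
  have m : ∀ s ∈ Icc 0 p.1, lp p s ∈ Dm T δ R w := fun s hs =>
    ⟨(lp_fst p s).symm ▸ ⟨by linarith [hs.1], hs.2.trans_lt hp.1.2⟩,
      (by simp [lp, nv]; ring : (lp p s).1 + (lp p s).2.1 = p.1 + p.2.1) ▸ hp.2.1,
      (by simp [lp, nv] : (lp p s).2.2 = p.2.2) ▸ hp.2.2⟩
  have d : ∀ s ∈ Icc 0 p.1, HasDerivAt (fun s => Λ (lp p s)) (dv nv Λ (lp p s)) s := fun s hs => by
    have := (h _ (m s hs)).2.hasFDerivAt.comp_hasDerivAt s
      ((((hasDerivAt_id s).sub_const p.1).smul_const nv).const_add p)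
    rw [one_smul] at this
    exact this
  have := strictAntiOn_of_deriv_neg (convex_Icc 0 p.1)
    (fun s hs => (d s hs).continuousAt.continuousWithinAt) (fun s hs => by
      rw [(d s (interior_subset hs)).deriv]
      exact (h _ (m s (interior_subset hs))).1) (left_mem_Icc.2 h0.le) (right_mem_Icc.2 h0.le) h0
  simp only [lp_self] at this
  exact this.trans_eq (congrArg Λ (by ext <;> simp [lp, nv, add_comm]))

/-- Growth at infinity. -/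
theorem ev_log {e : ℝ} (he : 0 < e) (A : ℝ) (k : ℕ) :
    ∀ᶠ T : ℝ in atTop, A * Real.log T ^ k ≤ T ^ e := by
  filter_upwards [((isLittleO_log_rpow_rpow_atTop (k : ℝ) he).const_mul_left A).eventuallyLE,
    eventually_ge_atTop 0] with T h h0
  rw [Real.rpow_natCast, Real.norm_of_nonneg (Real.rpow_nonneg h0 e)] at h
  exact (le_abs_self _).trans h

theorem ev_exp {κ : ℝ} (hκ : 0 < κ) (A : ℝ) (k : ℕ) :
    ∀ᶠ T : ℝ in atTop, A * T ^ k ≤ Real.exp (κ * T) :=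
  ((isLittleO_pow_exp_pos_mul_atTop k hκ).const_mul_left A).eventuallyLE.mono fun T h =>
    (le_abs_self _).trans (h.trans_eq (Real.norm_of_nonneg (Real.exp_pos _).le))

theorem gro_of {T δ G ν A ℓ : ℝ} {m : ℝ → ℝ} (hT : 0 ≤ T) (hδ : 0 ≤ δ) (h1 : T + δ ≤ G)
    (h2 : 2 ≤ G) (h3 : 0 < ν ∧ ν ≤ 1 ∧ 1 ≤ ν * G) (hA : 0 ≤ A)
    (hm : Continuous m ∧ (∀ t, 0 ≤ m t) ∧ ∫ t in (-δ)..T + δ, m t ≤ ℓ)
    (h : ν * (T + δ) + A / ν * ℓ ≤ Real.log G) : Gro (T + δ) G ν fun t => A * m t := by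
  refine ⟨continuous_const.mul hm.1, fun t => mul_nonneg hA (hm.2.1 t), ⟨by linarith, h1⟩, h2, h3,
    le_trans ?_ h⟩
  have := (intervalIntegral.integral_mono_interval (f := m) (μ := MeasureTheory.volume)
    (neg_nonpos.2 hδ) (add_nonneg hT hδ) le_rfl (.of_forall hm.2.1)
    (hm.1.intervalIntegrable _ _)).trans hm.2.2
  simp only [mul_div_right_comm]
  rw [intervalIntegral.integral_add intervalIntegrable_const
    ((hm.1.intervalIntegrable _ _).const_mul _), intervalIntegral.integral_const_mul]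
  simpa [mul_comm] using mul_le_mul_of_nonneg_left this (div_nonneg hA h3.1.le)

theorem ed_of {P : Pm} {d : P354I.Dat} {T : Tg} (ha : P.a ≠ 0) (hM : |P.a| < P.M)
    (h1 : rm P.M P.a < P.r1) (h : T.Is P d) (b : Bool) :
    Ed P (pb (ch P.M P.a b) T.g) {p | rm P.M P.a < rd p ∧ ch P.M P.a b p ∈ T.D} (T.Y b) (T.q b)
      (T.q' b) (T.β b) := by
  have Q := ch_pull kap_ok ha hM b h.lor.isOpen h.lor.met
  have m : ∀ p ∈ En P.M P.a P.r1 P.θ, ch P.M P.a b p ∈ T.D := fun p hp =>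
    h.sub (mem_D0 kap_ok ha hM h1 hp)
  refine ⟨⟨Q.open', P354RC.k2.1 _ _ _ _ _ Q, P354RC.k2.2.1 _ _ _ _ _ Q h.lor.vac⟩,
    fun p hp => ⟨h1.trans hp.1, m p hp⟩, fun p hp => ⟨?_, ?_⟩, h.ends b⟩
  · rw [pb, h.ori b p hp]
    exact h.lor.tl _ (m p hp)
  · obtain ⟨L, l1, l2, l3⟩ := h.lor.sig _ (m p hp)
    exact ⟨fun v => L (fderiv ℝ (ch P.M P.a b) p v), ⟨fun u v => by rw [map_add, l1.map_add],
      fun c v => by rw [map_smul, l1.map_smul]⟩, l2.comp (Q.inj p ⟨h1.trans hp.1, m p hp⟩),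
      fun v w => l3 _ _⟩

theorem ray_mono {n : ℕ} {C0 C ε ε' T L w δ sc sw σ : ℝ} {S : X3 → ℝ}
    (h : Ray n C0 C ε T L w δ sc sw σ S g) (e : ε ≤ ε') (hT : 0 ≤ T) :
    Ray n C0 C ε' T L w δ sc sw σ S g :=
  have k := mul_le_mul_of_nonneg_right e hT
  { h with bot := fun x hx => ⟨(h.bot x hx).1.trans k, fun a => ((h.bot x hx).2.1 a).trans k,
      (h.bot x hx).2.2⟩ }

theorem bot_mono {n : ℕ} {E C0 C ε ε' T w : ℝ} {ρ : X3 → ℝ} {η : X3 → ℝ × ℝ}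
    (h : Bot n E C0 C ε T w ρ η) (e : ε ≤ ε') (hT : 0 ≤ T) : Bot n E C0 C ε' T w ρ η :=
  have k := mul_le_mul_of_nonneg_right e hT
  ⟨{ h.sl with form := fun x hx => (h.sl.form x hx).imp fun _ h =>
      ⟨h.1, h.2.imp fun _ h => ⟨h.1.trans k, h.2⟩⟩ },
    fun x hx => ⟨(h.bd x hx).1.trans k, (h.bd x hx).2⟩⟩

/-- The slab in the development. -/
theorem sb_of {P : Pm} {d : P354I.Dat} {T : Tg} {n : ℕ} {E C0 C ε t L w R rr δ δ' sc σe : ℝ}
    {b σ : Bool} {q' : Par} {J0 : X3 → R4} {S ρ : X3 → ℝ} {η : X3 → ℝ × ℝ} {Φ : R4 → R4}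
    {Λ : R4 → ℝ} {U : R4 → Ix → ℝ} {J : X → R4} (ha : P.a ≠ 0) (hM : |P.a| < P.M)
    (hT : T.Is P d) (H : Rays n E C0 C ε t L w R rr δ sc σe P (pb (ch P.M P.a b) T.g)
      {p | rm P.M P.a < rd p ∧ ch P.M P.a b p ∈ T.D} (T.Y b) q' σ J0 S Φ ρ η)
    (pl : Pull (sm R Λ) (pb (sm R Λ) (pb Φ (pb (ch P.M P.a b) T.g))) (Dm t δ' R w)
      (pb Φ (pb (ch P.M P.a b) T.g)) (RD w δ S)) (inj : InjOn (sm R Λ) (Dm t δ' R w))
    (hΛ : ∀ p ∈ Dm t δ' R w, dv nv Λ p < 0 ∧ DifferentiableAt ℝ Λ p ∧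
      (p.1 = t → Λ p = p.1 + p.2.1 - R) ∧ (p.1 = 0 → Λ p = S (p.2.1 - R, p.2.2)))
    (fu : Fu U (Dm t δ' R w))
    (hU : ∀ p ∈ Dm t δ' R w, met U p = pb (sm R Λ) (pb Φ (pb (ch P.M P.a b) T.g)) p)
    (hJ : ∀ z ∈ Win R w 6, ch P.M P.a b (J0 (z.1 - R, z.2)) = J (lb b σ z))
    (pos : 0 < t ∧ 0 < δ' ∧ 0 < w) :
    Sb T.g T.D T.Xf J b σ t δ' R w U (ch P.M P.a b ∘ Φ ∘ sm R Λ)
      (mx P.M P.a b ∘ jS P.M P.a q' σ R ρ η) ∧
      ∀ p ∈ Dm t δ' R w, 0 ≤ p.1 → Φ (sm R Λ p) ∈ En P.M P.a P.r1 P.θ := by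
  obtain ⟨t0, δ0, w0⟩ := pos
  have Q := ch_pull kap_ok ha hM b hT.lor.isOpen hT.lor.met
  have Q2 := pull_comp Q (pull_comp H.pull.1 pl)
  have Q3 : Pull (ch P.M P.a b ∘ Φ ∘ sm R Λ) (met U) (Dm t δ' R w) T.g T.D :=
    { Q2 with eq := fun y hy v v' => hU y hy ▸ Q2.eq y hy v v' }
  have r := fun p (hp : p ∈ Dm t δ' R w) => (H.pull.1.maps (pl.maps hp)).1
  have lt : ∀ p ∈ Dm t δ' R w, 0 < p.1 → (sm R Λ p).1 < S (sm R Λ p).2 := fun p hp h0 =>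
    (lam_lt δ0 t0 (fun p hp => ⟨(hΛ p hp).1, (hΛ p hp).2.1⟩) hp h0).trans_eq
      ((hΛ (0, p.1 + p.2.1, p.2.2) ⟨⟨by linarith, by linarith⟩, by simpa using hp.2.1,
        hp.2.2⟩).2.2.2 rfl)
  have le : ∀ p ∈ Dm t δ' R w, 0 ≤ p.1 → (sm R Λ p).1 ≤ S (sm R Λ p).2 := fun p hp h0 =>
    h0.eq_or_lt.elim (fun e => ((hΛ p hp).2.2.2 e.symm).trans_le (by simp [sm, ← e]))
      fun e => (lt p hp e).le
  have mT : ∀ z ∈ Win R w 6, P354YX.pT t z ∈ Dm t δ' R w := fun z hz =>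
    ⟨⟨by simp only [P354YX.pT]; linarith, by simp only [P354YX.pT]; linarith⟩,
      by simpa [P354YX.pT] using hz.1, hz.2⟩
  have tp : ∀ z ∈ Win R w 6, (sm R Λ (P354YX.pT t z)).1 = (sm R Λ (P354YX.pT t z)).2.1 :=
    fun z hz => (hΛ _ (mT z hz)).2.2.1 rfl
  refine ⟨⟨⟨t0, δ0, w0⟩, fu, Q3, fun p hp q hq e => inj hp hq (H.pull.2 (pl.maps hp) (pl.maps hq)
    ?_), fun p hp => ?_, fun z hz => ?_, fun z hz => ?_, fun p hp h0 => ?_, fun p hp h0 h1 => ?_⟩,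
    fun p hp h0 => ((H.pt _ (pl.maps hp)).2.2.2.1 (le p hp h0)).1⟩
  · rw [← (ch_spec kap_ok ha hM b (r p hp)).2.1, ← (ch_spec kap_ok ha hM b (r q hq)).2.1]
    exact congrArg _ e
  · have z0 : ((R, 0) : X3) ∈ Win R w 6 := ⟨⟨by linarith, by linarith⟩, by simp⟩
    have c : ContinuousOn (fun p => T.g ((ch P.M P.a b ∘ Φ ∘ sm R Λ) p)
        (fderiv ℝ (ch P.M P.a b ∘ Φ ∘ sm R Λ) p nv) (T.Xf ((ch P.M P.a b ∘ Φ ∘ sm R Λ) p)))
        (Dm t δ' R w) := fun p hp => by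
      have r := P354XD.rp_tb hT.lor.isOpen hT.lor.met
      have s := P354YR.pull_at Q3 hp
      refine ContinuousWithinAt.congr_of_mem (ContinuousAt.continuousWithinAt ?_)
        (fun y hy => r.eq _ (Q3.maps hy) _ _) hp
      exact (((r.at (Q3.maps hp)).continuousAt.comp s.continuousAt).clm_apply
        ((P354RC.at_fd s).continuousAt.clm_apply continuousAt_const)).clm_apply
        ((hT.lor.cont.continuousAt (hT.lor.isOpen.mem_nhds (Q3.maps hp))).comp s.continuousAt)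
    refine (box_cvx _ _ _ _ _).isPreconnected.gt_of_ne c (fun p hp => nul_ne hT.lor (Q3.maps hp)
      (fun e => ?_) ?_) ⟨_, mT _ z0, ?_⟩ hp
    · simpa [nv] using Q3.inj p hp (e.trans (map_zero _).symm)
    · rw [← Q3.eq p hp]
      simp only [met, P354C.eta, P354C.th, nv]
      simp
    · have m := mT _ z0
      have k := ((H.pt _ (pl.maps m)).2.2.2.2.1 (tp _ z0)).2
      have en := ((H.pt _ (pl.maps m)).2.2.2.1 (le _ m t0.le)).1
      have e1 : fderiv ℝ (sm R Λ) (P354YX.pT t (R, 0)) nv = dv nv Λ (P354YX.pT t (R, 0)) • e0 := by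
        rw [sm_fd (hΛ _ m).2.1]
        simp [nv, e0, dv]
      have d := fun {f : R4 → R4} {x : R4} (h : ContDiffAt ℝ ∞ f x) => h.differentiableAt (by simp)
      have d1 := d (P354YR.pull_at pl m)
      have d2 := d (P354YR.pull_at H.pull.1 (pl.maps m))
      rw [pb, hT.ori b _ en] at k
      rw [fderiv_comp (f := Φ ∘ sm R Λ) (P354YX.pT t (R, 0)) (d (ch_spec kap_ok ha hM b (r _ m)).1)
        (d2.comp _ d1), fderiv_comp _ d2 d1]
      simp only [ContinuousLinearMap.comp_apply, e1, map_smul]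
      rw [met_smul hT.lor.met (Q3.maps m)]
      exact mul_neg_of_neg_of_pos (hΛ _ m).1 k
  · have m : ((0, z) : R4) ∈ Dm t δ' R w := ⟨⟨by linarith, by linarith⟩, by simpa using hz.1, hz.2⟩
    have e : (sm R Λ (0, z)).2 = (z.1 - R, z.2) := by simp [sm]
    obtain ⟨k1, k2⟩ := (H.pt _ (pl.maps m)).2.2.2.2.2.1 (e ▸ (hΛ _ m).2.2.2 rfl)
    have k3 : kap P.M P.a (Φ (sm R Λ (0, z))) = P354XE.pt 0 (jS P.M P.a q' σ R ρ η z) := by
      rw [← P354XE.pt_xs (kap _ _ _), k2, k1, e]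
      rfl
    cases b
    · exact (congrArg (mir P.M P.a) k3).trans rfl
    · exact k3
  · rw [← hJ z hz, Function.comp, Function.comp, ((H.pt _ (pl.maps (mT z hz))).2.2.2.2.1
      (tp z hz)).1]
    simp [sm, P354YX.pT]
  · exact ((H.pt _ (pl.maps hp)).2.2.1 (lt p hp h0)).trans_eq
      (ch_spec kap_ok ha hM b (r p hp)).2.2.2.2.1.symm
  · obtain ⟨c, c0, k⟩ := ch_z ha hM b (r p hp)
    rw [Function.comp, Function.comp, k, mul_left_comm]
    exact mul_pos c0 (((H.pt _ (pl.maps hp)).2.2.2.1 (le p hp h0)).2 h1)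

end Vale.Agent.P354YU
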